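import Vale.Agent.P011.Tri.Core

/-!
Transitivity on all spheres of positive radius, by twisting the involution, and the conclusion
about the commutator subgroup.
-/

open Module NumberField

namespace Vale.Agent.P011.Tri

open Vale.Agent.P011S

section twist

variable {K D V : Type} [Field K] [StarRing K] [DivisionRing D] [st : StarRing D]
  [Algebra K D] [AddCommGroup V] [Module D V]

/-- The involution `x ↦ a x* a⁻¹`. -/
@[reducible] def twist (a : D) (ha : star a = a) (ha0 : a ≠ 0) : StarRing D where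
  star x := a * star x * a⁻¹
  star_involutive x := by
    change a * star (a * star x * a⁻¹) * a⁻¹ = x
    rw [star_mul, star_mul, star_star, star_inv₀, ha, mul_inv_cancel_left₀ ha0, mul_assoc,
      mul_inv_cancel₀ ha0, mul_one]
  star_mul x y := by
    change a * star (x * y) * a⁻¹ = (a * star y * a⁻¹) * (a * star x * a⁻¹)
    rw [star_mul]
    simp only [mul_assoc]
    rw [inv_mul_cancel_left₀ ha0]
  star_add x y := by
    change a * star (x + y) * a⁻¹ = a * star x * a⁻¹ + a * star y * a⁻¹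
    rw [star_add, mul_add, add_mul]

theorem twist_star {a : D} (ha : star a = a) (ha0 : a ≠ 0) (x : D) :
    @star D (twist a ha ha0).toStar x = a * star x * a⁻¹ := rfl

theorem twist_starModule [StarModule K D] {a : D} (ha : star a = a) (ha0 : a ≠ 0) :
    @StarModule K D _ (twist a ha ha0).toStar _ := by
  refine @StarModule.mk K D _ (twist a ha ha0).toStar _ ?_
  intro k x
  change a * star (k • x) * a⁻¹ = star k • (a * star x * a⁻¹)
  rw [star_smul, mul_smul_comm, smul_mul_assoc]

/-- The twisted form. -/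
def twForm (H : AForm D V) {a : D} (ha : star a = a) (ha0 : a ≠ 0) :
    @AForm D V _ (twist a ha ha0) _ _ :=
  @AForm.mk D V _ (twist a ha ha0) _ _ (fun x y => H.h x y * a⁻¹)
    (fun x y z => by rw [H.add_left, add_mul])
    (fun c x y => by rw [H.smul_left, mul_assoc])
    (fun x y => by
      change a * star (H.h x y * a⁻¹) * a⁻¹ = H.h y x * a⁻¹
      rw [star_mul, star_inv₀, ha, H.star_h, ← mul_assoc, mul_inv_cancel₀ ha0, one_mul])
    (fun x hx => H.anis ((mul_eq_zero.mp hx).resolve_right (inv_ne_zero ha0)))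

theorem twForm_h (H : AForm D V) {a : D} (ha : star a = a) (ha0 : a ≠ 0) (x y : V) :
    @AForm.h D V _ (twist a ha ha0) _ _ (twForm H ha ha0) x y = H.h x y * a⁻¹ := rfl

/-- The twisted central unitary element. -/
def twCU (u : CU D) {a : D} (ha : star a = a) (ha0 : a ≠ 0) : @CU D _ (twist a ha ha0) :=
  @CU.mk D _ (twist a ha ha0) u.val u.comm (by
    change u.val * (a * star u.val * a⁻¹) = 1
    rw [← mul_assoc, ← mul_assoc, u.comm a, mul_assoc a, u.unit, mul_one, mul_inv_cancel₀ ha0])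
    u.ne

theorem twCU_val (u : CU D) {a : D} (ha : star a = a) (ha0 : a ≠ 0) :
    @CU.val D _ (twist a ha ha0) (twCU u ha ha0) = u.val := rfl

theorem tw_lq (H : AForm D V) {a : D} (ha : star a = a) (ha0 : a ≠ 0) (u : CU D) (p : V) :
    @lq D V _ (twist a ha ha0) _ _ (twForm H ha ha0) (twCU u ha ha0) p = lq H u p := by
  ext v
  rw [@lq_apply D V _ (twist a ha ha0) _ _ (twForm H ha ha0) (twCU u ha ha0) p v, lq_apply,
    twForm_h, twForm_h, twCU_val, mul_inv_rev, inv_inv, mul_assoc (H.h v p) a⁻¹,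
    inv_mul_cancel_left₀ ha0]

theorem tw_Qgp (H : AForm D V) {a : D} (ha : star a = a) (ha0 : a ≠ 0) (S : Set (CU D)) :
    @Qgp D V _ (twist a ha ha0) _ _ (twForm H ha ha0) ((fun u => twCU u ha ha0) '' S) ≤
      Qgp H S := by
  rw [@Qgp.eq_1 D V _ (twist a ha ha0) _ _, Subgroup.closure_le]
  rintro g ⟨u', ⟨u, hu, rfl⟩, p, q, hp, hq, rfl⟩
  apply Subgroup.subset_closure
  refine ⟨u, hu, p, q, hp, hq, ?_⟩
  rw [tw_lq, tw_lq]

theorem tw_Qrel (H : AForm D V) {a : D} (ha : star a = a) (ha0 : a ≠ 0) {S : Set (CU D)}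
    {x y : V} (h : @Qrel D V _ (twist a ha ha0) _ _ (twForm H ha ha0)
      ((fun u => twCU u ha ha0) '' S) x y) : Qrel H S x y := by
  obtain ⟨g, hg, hgx⟩ := h
  exact ⟨g, tw_Qgp H ha ha0 S hg, hgx⟩

theorem tw_near {a : D} (ha : star a = a) (ha0 : a ≠ 0) {S : Set (CU D)} (hS : Near K S) :
    @Near K D _ _ _ (twist a ha ha0) _ ((fun u => twCU u ha ha0) '' S) := by
  intro ε hε
  obtain ⟨w, hw, k, hk, hn⟩ := hS ε hε
  exact ⟨twCU w ha ha0, ⟨w, hw, rfl⟩, k, hk, hn⟩

/-- The trace of the product of a totally positive element and a sum of squares is positive. -/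
theorem posE_trace {P s : D} (hP : PosE K P) (hs : s ∈ sos D) (hs0 : s ≠ 0) {σ : K →+* ℂ}
    (hσ : RT σ) : 0 < (σ (tr K (P * s))).re := by
  have htr : ∀ x y : D, tr K (x * y) = tr K (y * x) := by
    intro x y
    change LinearMap.trace K D (LinearMap.mul K D (x * y)) = LinearMap.trace K D
      (LinearMap.mul K D (y * x))
    have h1 : ∀ x y : D, LinearMap.mul K D (x * y) =
        (LinearMap.mul K D x) * (LinearMap.mul K D y) := by
      intro x y
      ext z
      simp [mul_assoc]
    rw [h1, h1, LinearMap.trace_mul_comm]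
  have key : s = 0 ∨ 0 < (σ (tr K (P * s))).re := by
    induction hs using AddSubmonoid.closure_induction with
    | mem x hx =>
      obtain ⟨t, rfl⟩ := hx
      by_cases ht : t = 0
      · left; simp [ht]
      · right
        have h1 := hP σ hσ (star t) (star_ne_zero.mpr ht)
        rw [star_star] at h1
        have h2 : tr K (P * (t * star t)) = tr K (star t * P * t) := by
          rw [← mul_assoc, htr, ← mul_assoc]
        rwa [h2]
    | zero => exact Or.inl rfl
    | add x y hx hy ihx ihy =>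
      rw [mul_add, map_add, map_add, Complex.add_re]
      by_cases hx0 : x = 0
      · rw [hx0, mul_zero, map_zero, map_zero, Complex.zero_re, zero_add, zero_add]
        by_cases hy0 : y = 0
        · exact Or.inl hy0
        · exact (ihy hy0).imp id id
      · by_cases hy0 : y = 0
        · rw [hy0, mul_zero, map_zero, map_zero, Complex.zero_re, add_zero, add_zero]
          exact ihx hx0
        · right
          exact add_pos ((ihx hx0).resolve_left hx0) ((ihy hy0).resolve_left hy0)
  exact key.resolve_left hs0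

/-- Total positivity with respect to the twisted involution. -/
theorem tw_posE {a : D} (ha : a ∈ sos D) (ha0 : a ≠ 0) {P : D} (hP : PosE K P) :
    @PosE K D _ _ _ (twist a (sos_star ha) ha0) _ (P * a⁻¹) := by
  intro σ hσ x hx
  rw [twist_star]
  have e1 : x * (P * a⁻¹) * (a * star x * a⁻¹) = x * P * star x * a⁻¹ := by
    simp only [mul_assoc]
    rw [inv_mul_cancel_left₀ ha0]
  rw [e1]
  exact posE_trace (hP.conj hx) (sos_inv ha) (inv_ne_zero ha0) hσ

theorem posE_of_sos (h1 : PosE K (1 : D)) {a : D} (ha : a ∈ sos D) (ha0 : a ≠ 0) : PosE K a := by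
  have key : a = 0 ∨ PosE K a := by
    induction ha using AddSubmonoid.closure_induction with
    | mem x hx =>
      obtain ⟨t, rfl⟩ := hx
      by_cases ht : t = 0
      · left; simp [ht]
      · exact Or.inr (PosE.mul_star h1 ht)
    | zero => exact Or.inl rfl
    | add x y hx hy ihx ihy =>
      by_cases hx0 : x = 0
      · rw [hx0, zero_add]
        by_cases hy0 : y = 0
        · exact Or.inl hy0
        · exact ihy hy0
      · by_cases hy0 : y = 0
        · rw [hy0, add_zero]; exact ihx hx0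
        · exact Or.inr (((ihx hx0).resolve_left hx0).add ((ihy hy0).resolve_left hy0))
  exact key.resolve_left ha0

end twist

section main

variable {K D V : Type} [Field K] [NumberField K] [StarRing K] [DivisionRing D] [st : StarRing D]
  [Algebra K D] [StarModule K D] [FiniteDimensional K D] [AddCommGroup V] [Module D V]

/-- The condition on the third vector. -/
def ThirdOK (K : Type) {D V : Type} [Field K] [StarRing K] [DivisionRing D] [StarRing D]
    [Algebra K D] [AddCommGroup V] [Module D V] (H : AForm D V) : Prop :=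
  ∀ (a : D) (ha : a ∈ sos D) (ha0 : a ≠ 0) (x x' : V), H.h x x = a → H.h x' x' = a →
    ∃ z : V, z ≠ 0 ∧ H.h x z = 0 ∧ H.h x' z = 0 ∧
      (H.h x x' * a⁻¹ * H.h x' x * a⁻¹) * (H.h z z * a⁻¹) =
        (H.h z z * a⁻¹) * (H.h x x' * a⁻¹ * H.h x' x * a⁻¹) ∧
      @SignOK K D _ _ _ (twist a (sos_star ha) ha0) _
        (H.h x x' * a⁻¹ * H.h x' x * a⁻¹) (H.h z z * a⁻¹)

/-- **Transitivity on the spheres of positive radius.** -/
theorem sphere_trans' (hNS : NS) (hK : ∃ k : K, star k ≠ k) (hpos : PosE K (1 : D))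
    (hRT : ∃ σ : K →+* ℂ, RT σ) {S : Set (CU D)} (hS : Near K S) {H : AForm D V}
    (hR0 : ∀ x y : V, ∃ z : V, z ≠ 0 ∧ H.h x z = 0 ∧ H.h y z = 0)
    (hR1 : ∀ a ∈ sos D, ∀ x : V, ∃ x'' : V, H.h x'' x'' = a ∧ H.h x x'' = 0)
    (hRZ : ThirdOK K H) {a : D} (ha : a ∈ sos D) (ha0 : a ≠ 0)
    {x x' : V} (hx : H.h x x = a) (hx' : H.h x' x' = a) : Qrel H S x x' := by
  have hsa := sos_star ha
  apply tw_Qrel H hsa ha0
  have h1 : @PosE K D _ _ _ (twist a hsa ha0) _ (1 : D) := by
    have := tw_posE (K := K) ha ha0 (posE_of_sos hpos ha ha0)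
    rwa [mul_inv_cancel₀ ha0] at this
  refine @sphere_trans K D V _ _ _ _ (twist a hsa ha0) _ (twist_starModule hsa ha0) _ _ _ hNS hK
    h1 hRT _ (tw_near hsa ha0 hS) (twForm H hsa ha0) ?_ ?_ ?_ x x' ?_ ?_
  · intro y z
    obtain ⟨w, hw, hyw, hzw⟩ := hR0 y z
    exact ⟨w, hw, by rw [twForm_h, hyw, zero_mul], by rw [twForm_h, hzw, zero_mul]⟩
  · intro y _
    obtain ⟨y', hy', hyy'⟩ := hR1 a ha y
    exact ⟨y', by rw [twForm_h, hy', mul_inv_cancel₀ ha0], by rw [twForm_h, hyy', zero_mul]⟩
  · intro y y' hy hy' _ _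
    rw [twForm_h] at hy hy'
    have e1 : ∀ t : D, t * a⁻¹ = 1 → t = a := by
      intro t ht
      rw [← mul_one t, ← inv_mul_cancel₀ ha0, ← mul_assoc, ht, one_mul]
    obtain ⟨z, hz, h1, h2, h3, h4⟩ := hRZ a ha ha0 y y' (e1 _ hy) (e1 _ hy')
    have e2 : @AForm.h D V _ (twist a hsa ha0) _ _ (twForm H hsa ha0) y y' *
        @star D (twist a hsa ha0).toStar (@AForm.h D V _ (twist a hsa ha0) _ _
          (twForm H hsa ha0) y y') = H.h y y' * a⁻¹ * H.h y' y * a⁻¹ := by
      rw [twForm_h, twist_star, star_mul, star_inv₀, hsa, H.star_h, ← mul_assoc a,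
        mul_inv_cancel₀ ha0, one_mul, ← mul_assoc]
    rw [e2]
    refine ⟨z, hz, by rw [twForm_h, h1, zero_mul], by rw [twForm_h, h2, zero_mul], h3, h4⟩
  · rw [twForm_h, hx, mul_inv_cancel₀ ha0]
  · rw [twForm_h, hx', mul_inv_cancel₀ ha0]

omit [NumberField K] [StarModule K D] [FiniteDimensional K D] [Algebra K D] [Field K]
  [StarRing K] in
/-- Transitivity on the spheres implies that the quotient is commutative. -/
theorem comm_le_Qgp {S : Set (CU D)} {H : AForm D V} (hgen : H.isom ≤ H.posQrGp)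
    (htr : ∀ a ∈ sos D, a ≠ 0 → ∀ x x' : V, H.h x x = a → H.h x' x' = a → Qrel H S x x') :
    ⁅H.isom, H.isom⁆ ≤ Qgp H S := by
  -- conjugates of the generators
  have hq : ∀ (v : V) (s : D) (hs : s + star s = H.h v v), H.h v v ∈ sos D →
      ∀ k ∈ H.isom, k * H.qr v s hs * k⁻¹ * (H.qr v s hs)⁻¹ ∈ Qgp H S := by
    intro v s hs hv k hk
    by_cases hv0 : H.h v v = 0
    · have : H.qr v s hs = 1 := by
        ext w
        rw [H.qr_apply, H.anis hv0]; simp
      rw [this]
      simp only [mul_one, mul_inv_cancel, inv_one]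
      exact one_mem _
    · have hkv : H.h (k v) (k v) = H.h v v := H.isom_apply hk v v
      obtain ⟨g, hg, hgv⟩ := htr _ hv hv0 v (k v) rfl hkv
      have hgi := Qgp_le hg
      have e1 : k * H.qr v s hs * k⁻¹ = g * H.qr v s hs * g⁻¹ := by
        rw [H.qr_conj hk v s hs (by rw [hkv, hs]),
          H.qr_conj hgi v s hs (by rw [H.isom_apply hgi, hs])]
        congr 1
        exact hgv.symm
      rw [e1]
      have e2 : g * H.qr v s hs * g⁻¹ * (H.qr v s hs)⁻¹ =
          g * (H.qr v s hs * g⁻¹ * (H.qr v s hs)⁻¹) := by group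
      rw [e2]
      exact mul_mem hg (Qgp_conj (H.qr_mem _ _ _) (inv_mem hg))
  have hc : ∀ g ∈ H.posQrGp, ∀ k ∈ H.isom, k * g * k⁻¹ * g⁻¹ ∈ Qgp H S := by
    intro g hg
    induction hg using Subgroup.closure_induction with
    | mem g hg =>
      obtain ⟨v, s, hs, hv, rfl⟩ := hg
      exact hq v s hs hv
    | one =>
      intro k _
      simp only [mul_one, mul_inv_cancel, inv_one]
      exact one_mem _
    | mul a b ha hb iha ihb =>
      intro k hk
      have e1 : k * (a * b) * k⁻¹ * (a * b)⁻¹ =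
          (k * a * k⁻¹ * a⁻¹) * (a * (k * b * k⁻¹ * b⁻¹) * a⁻¹) := by group
      rw [e1]
      exact mul_mem (iha k hk) (Qgp_conj (H.posQrGp_le ha) (ihb k hk))
    | inv a ha iha =>
      intro k hk
      have e1 : k * a⁻¹ * k⁻¹ * a⁻¹⁻¹ = (k * a⁻¹ * k⁻¹) * (k * a * k⁻¹ * a⁻¹)⁻¹ *
          (k * a⁻¹ * k⁻¹)⁻¹ := by group
      rw [e1]
      have hka : k * a⁻¹ * k⁻¹ ∈ H.isom :=
        mul_mem (mul_mem hk (inv_mem (H.posQrGp_le ha))) (inv_mem hk)
      exact Qgp_conj hka (inv_mem (iha k hk))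
  rw [Subgroup.commutator_le]
  intro k hk g hg
  have := hc g (hgen hg) k hk
  rwa [commutatorElement_def]

end main

end Vale.Agent.P011.Tri
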