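import Vale.Agent.P011.Tri.Base

/-!
Two quasi-reflections with the same central factor moving a given vector to a given vector of
the same norm: reduction to the values of a quaternion norm form.
-/

open Module NumberField

namespace Vale.Agent.P011.Tri

open Vale.Agent.P011S

section phase

variable {L : Type} [Field L] [StarRing L] [CharZero L]

/-- A phase making a real number different from zero. -/
theorem exists_phase {A T θ : L} (hT : T ≠ 0) (hθ : star θ = -θ) (hθ0 : θ ≠ 0) :
    ∃ μ : L, μ * star μ = 1 ∧ A + (μ * T + star (μ * T)) ≠ 0 := by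
  by_cases h1 : A + (T + star T) = 0
  · by_cases h2 : A - (T + star T) = 0
    · have hA0 : A = 0 := by
        have : 2 * A = 0 := by linear_combination h1 + h2
        exact (mul_eq_zero.mp this).resolve_left two_ne_zero
      have hTs : star T = -T := by linear_combination h1 - hA0
      obtain ⟨g, hg, hg1, hg2⟩ : ∃ g : L, star g = -g ∧ g ≠ 0 ∧ 1 - g ≠ 0 := by
        refine ⟨θ, hθ, hθ0, fun h => ?_⟩
        have h3 : θ = 1 := by linear_combination -h
        rw [h3, star_one] at hθ
        have : (2 : L) = 0 := by linear_combination hθ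
        exact two_ne_zero this
      have hg3 : 1 + g ≠ 0 := by
        intro h
        apply hg2
        have h3 := congrArg star h
        rw [star_add, star_one, hg, star_zero] at h3
        linear_combination h3
      refine ⟨(1 + g) / (1 - g), ?_, ?_⟩
      · rw [star_div₀, star_add, star_sub, star_one, hg, sub_neg_eq_add, ← sub_eq_add_neg]
        field_simp
      · rw [star_mul', star_div₀, star_add, star_sub, star_one, hg, hTs, hA0, zero_add]
        have e : (1 + g) / (1 - g) * T + (1 + -g) / (1 - -g) * -T =
            4 * g * T / ((1 - g) * (1 + g)) := by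
          rw [sub_neg_eq_add, ← sub_eq_add_neg]
          field_simp
          ring
        rw [e]
        exact div_ne_zero (mul_ne_zero (mul_ne_zero (by norm_num) hg1) hT) (mul_ne_zero hg2 hg3)
    · refine ⟨-1, by simp, fun h => h2 ?_⟩
      rw [neg_one_mul, star_neg] at h
      linear_combination h
  · exact ⟨1, by simp, by rwa [one_mul]⟩

end phase

section frame

variable {D V L : Type} [DivisionRing D] [StarRing D] [AddCommGroup V] [Module D V]
  [Field L] [StarRing L] (H : AForm D V) (ι : L →+* D) (hι : ∀ z, ι (star z) = star (ι z))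

include hι in
/-- The form on combinations of three vectors with coefficients in a commutative subfield. -/
theorem comb {x v z : V} {a b c f : L} (hxx : H.h x x = ι a) (hxv : H.h x v = ι b)
    (hvv : H.h v v = ι c) (hzz : H.h z z = ι f) (hxz : H.h x z = 0) (hvz : H.h v z = 0)
    (α β l α' β' l' : L) :
    H.h (ι α • x + ι β • v + ι l • z) (ι α' • x + ι β' • v + ι l' • z) =
      ι (α * a * star α' + α * b * star β' + β * star b * star α' + β * c * star β' +
        l * f * star l') := by
  have hvx : H.h v x = ι (star b) := by rw [hι, ← hxv, H.star_h]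
  have hzx : H.h z x = 0 := H.orth_symm hxz
  have hzv : H.h z v = 0 := H.orth_symm hvz
  simp only [H.add_left, H.add_right, H.smul_left, H.smul_right, hxx, hxv, hvv, hzz, hxz, hvz,
    hvx, hzx, hzv, mul_zero, zero_mul, add_zero, zero_add, ← hι, ← map_mul, ← map_add]
  congr 1
  ring

end frame

/-- The commutative computation. -/
theorem main_comm {L : Type} [Field L] [StarRing L] [CharZero L] {u a b c f : L}
    (hu : u * star u = 1) (ha : star a = a) (hc : star c = c) (hf : star f = f)
    (hrel : (1 - star u) * b + (1 - u) * star b = (1 - u) * (1 - star u) * c) (hu1 : u ≠ 1)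
    (ha0 : a ≠ 0) (hc0 : c ≠ 0) (hac : a - c ≠ 0) (hD : a * c - b * star b ≠ 0)
    {θ : L} (hθ : star θ = -θ) (hθ0 : θ ≠ 0)
    (h : ∃ ξ η : L, (a * c - b * star b) * c * (a - c) =
      ξ * star ξ + (a * (a * c - b * star b) * f) * (η * star η)) :
    ∃ α β l : L,
      -- `h(p,x)`, which equals `h(p,p)`
      (α * a + β * star b ≠ 0) ∧
      (star (α * a + β * star b) = α * a + β * star b) ∧
      (α * a * star α + α * b * star β + β * star b * star α + β * c * star β + l * f * star l
        = α * a + β * star b) ∧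
      -- `u * h(v,p) + h(p,v) = b + u c`
      (u * star (α * b + β * c) + (α * b + β * c) = b + u * c) := by
  obtain ⟨D, hDd⟩ : ∃ D, D = a * c - b * star b := ⟨_, rfl⟩
  have hDs : star D = D := by
    rw [hDd, star_sub, star_mul', star_mul', star_star, ha, hc]; ring
  rw [← hDd] at hD
  have hu0 : u ≠ 0 := by rintro rfl; simp at hu
  have hus : star u = u⁻¹ := eq_inv_of_mul_eq_one_right hu
  obtain ⟨c₀, hc₀⟩ : ∃ c₀, c₀ = b + u * c := ⟨_, rfl⟩
  have h1u : 1 - u ≠ 0 := sub_ne_zero.mpr (Ne.symm hu1)
  -- `u * star c₀ = c₀`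
  have hrel' : u * star b = b + (u - 1) * c := by
    have h1 : (1 - u) * (u * star b - (b + (u - 1) * c)) = 0 := by
      rw [hus] at hrel
      field_simp at hrel
      linear_combination hrel
    have h2 := (mul_eq_zero.mp h1).resolve_left h1u
    linear_combination h2
  have hc₀s : u * star c₀ = c₀ := by
    rw [hc₀, star_add, star_mul', hc]
    linear_combination hrel' + c * hu
  by_cases h00 : c₀ = 0
  · -- the degenerate case
    have hb : b = -(u * c) := by linear_combination h00 - hc₀
    have hbs : star b = -(star u * c) := by rw [hb, star_neg, star_mul', hc]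
    refine ⟨1, u, 0, ?_, ?_, ?_, ?_⟩
    · rw [hbs]
      intro h
      apply hac
      linear_combination h + c * hu
    · rw [hbs]
      have e : 1 * a + u * -(star u * c) = a - c := by linear_combination -c * hu
      rw [e, star_sub, ha, hc]
    · rw [hbs, hb, star_one]
      linear_combination (-c + c * u * star u - c * u * star u) * hu + c * hu
    · rw [hb]
      have e : 1 * -(u * c) + u * c = 0 := by ring
      rw [e, star_zero]; ring
  · have hc₀s0 : star c₀ ≠ 0 := star_ne_zero.mpr h00
    obtain ⟨ξ, η, hξ0, hE⟩ := ns_ne (L := L) (e := a * (a * c - b * star b) * f)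
      (m := (a * c - b * star b) * c * (a - c))
      (by rw [← hDd, star_mul', star_mul', ha, hf, hDs])
      (by rw [← hDd]; exact mul_ne_zero (mul_ne_zero hD hc0) hac) h
    rw [← hDd] at hE
    -- the phase
    obtain ⟨A, hA⟩ : ∃ A, A = b / c₀ + star b / star c₀ + 2 * D / (c₀ * star c₀) := ⟨_, rfl⟩
    have hAs : star A = A := by
      rw [hA, star_add, star_add, star_div₀, star_div₀, star_div₀, star_mul', star_mul', star_star,
        star_star, hDs, star_ofNat]
      ring
    obtain ⟨μ, hμ, hμ'⟩ := exists_phase (A := A) (T := ξ / c₀ / c₀)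
      (div_ne_zero (div_ne_zero hξ0 h00) h00) hθ hθ0
    obtain ⟨E, hEd⟩ : ∃ E, E = μ * ξ / c₀ := ⟨_, rfl⟩
    obtain ⟨l, hl⟩ : ∃ l, l = η / c₀ := ⟨_, rfl⟩
    have hEE : E * star E + a * D * f * (l * star l) = D * c * (a - c) / (c₀ * star c₀) := by
      rw [hEd, hl, star_div₀, star_div₀, star_mul', hE]
      field_simp
      linear_combination (ξ * star ξ) * hμ
    obtain ⟨w, hw⟩ : ∃ w, w = (b + D / star c₀ + E) / a := ⟨_, rfl⟩
    have hwa : a * w = b + D / star c₀ + E := by rw [hw]; field_simp
    have hws : a * star w = star b + D / c₀ + star E := by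
      have := congrArg star hwa
      rwa [star_mul', star_add, star_add, star_div₀, star_star, ha, hDs] at this
    obtain ⟨r, hr⟩ : ∃ r, r = w / c₀ + star w / star c₀ := ⟨_, rfl⟩
    have hrs : star r = r := by
      rw [hr, star_add, star_div₀, star_div₀, star_star, star_star]; ring
    have har : a * r = A + (μ * (ξ / c₀ / c₀) + star (μ * (ξ / c₀ / c₀))) := by
      have e1 : star (μ * (ξ / c₀ / c₀)) = star E / star c₀ := by
        rw [hEd]
        simp only [star_mul', star_div₀]
        ring
      have e2 : μ * (ξ / c₀ / c₀) = E / c₀ := by rw [hEd]; ring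
      rw [e1, e2, hr, hA]
      have e3 : a * (w / c₀ + star w / star c₀) = (a * w) / c₀ + (a * star w) / star c₀ := by ring
      rw [e3, hwa, hws]
      field_simp
      ring
    have hr0 : r ≠ 0 := by
      rintro h0
      rw [h0, mul_zero] at har
      exact hμ' har.symm
    -- the quadratic equation
    have hq : (c - b * star w - star b * w + a * w * star w) / D + f * (l * star l) = r := by
      have h1 : a * D * ((c - b * star w - star b * w + a * w * star w) / D + f * (l * star l)) =
          a * D * r := by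
        have e1 : a * D * ((c - b * star w - star b * w + a * w * star w) / D +
            f * (l * star l)) = a * c - b * (a * star w) - star b * (a * w) +
              (a * w) * (a * star w) + a * D * f * (l * star l) := by
          field_simp
        have e2 : a * D * r = D * ((a * w) / c₀ + (a * star w) / star c₀) := by
          rw [hr]; ring
        rw [e1, e2, hwa, hws]
        have e3 : a * D * f * (l * star l) = D * c * (a - c) / (c₀ * star c₀) - E * star E := by
          linear_combination hEE
        rw [e3]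
        have hbs : star b = (star c₀) - star u * c := by
          rw [hc₀, star_add, star_mul', hc]; ring
        have hb : b = c₀ - u * c := by rw [hc₀]; ring
        have hDe : D = a * c - (c₀ - u * c) * (star c₀ - star u * c) := by
          rw [hDd, hbs, hb]
        have hkey : D * (c₀ * star c₀) = D * (b * star c₀ + star b * c₀) + D * D -
            D * c * (a - c) := by
          have : c₀ * star c₀ = (b * star c₀ + star b * c₀) + D - c * (a - c) := by
            rw [hDd, hbs, hb]
            linear_combination (c ^ 2) * hu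
          rw [this]; ring
        field_simp
        linear_combination hkey - (c₀ * star c₀) * hDd
      exact mul_left_cancel₀ (mul_ne_zero ha0 hD) h1
    have g1 : (c - w * star b) / D / r * a + (-b + w * a) / D / r * star b = 1 / r := by
      have e1 : (c - w * star b) / D / r * a + (-b + w * a) / D / r * star b =
          (a * c - b * star b) / D / r := by ring
      rw [e1, ← hDd, div_self hD]
    have g2 : (c - w * star b) / D / r * b + (-b + w * a) / D / r * c = w / r := by
      have e1 : (c - w * star b) / D / r * b + (-b + w * a) / D / r * c =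
          w * ((a * c - b * star b) / D) / r := by ring
      rw [e1, ← hDd, div_self hD, mul_one]
    refine ⟨(c - w * star b) / D / r, (-b + w * a) / D / r, l / r, ?_, ?_, ?_, ?_⟩
    · rw [g1]; exact one_div_ne_zero hr0
    · rw [g1, star_div₀, star_one, hrs]
    · rw [g1]
      have g3 : star ((c - w * star b) / D / r) = (c - star w * b) / D / r := by
        rw [star_div₀, star_div₀, star_sub, star_mul', star_star, hc, hDs, hrs]
      have g4 : star ((-b + w * a) / D / r) = (-star b + star w * a) / D / r := by
        rw [star_div₀, star_div₀, star_add, star_mul', star_neg, ha, hDs, hrs]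
      have g5 : star (l / r) = star l / r := by rw [star_div₀, hrs]
      rw [g3, g4, g5]
      have e1 : (c - w * star b) / D / r * a * ((c - star w * b) / D / r) +
          (c - w * star b) / D / r * b * ((-star b + star w * a) / D / r) +
          (-b + w * a) / D / r * star b * ((c - star w * b) / D / r) +
          (-b + w * a) / D / r * c * ((-star b + star w * a) / D / r) +
          l / r * f * (star l / r) =
          ((c - w * star b) / D / r * a + (-b + w * a) / D / r * star b) *
            ((c - star w * b) / D / r) +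
          ((c - w * star b) / D / r * b + (-b + w * a) / D / r * c) *
            ((-star b + star w * a) / D / r) + f * (l * star l) / (r * r) := by
        field_simp
        ring
      rw [e1, g1, g2]
      have e2 : 1 / r * ((c - star w * b) / D / r) + w / r * ((-star b + star w * a) / D / r) +
          f * (l * star l) / (r * r) =
          ((c - b * star w - star b * w + a * w * star w) / D + f * (l * star l)) / (r * r) := by
        field_simp
        ring
      rw [e2, hq]
      field_simp
    · rw [g2, star_div₀, hrs, ← hc₀]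
      have e1 : u * (star w / r) + w / r = (u * star w + w) / r := by ring
      rw [e1, div_eq_iff hr0, hr]
      have e2 : c₀ * (w / c₀ + star w / star c₀) = w + (c₀ / star c₀) * star w := by
        field_simp
      have e3 : c₀ / star c₀ = u := by
        rw [div_eq_iff hc₀s0]; exact hc₀s.symm
      rw [e2, e3]; ring

/-- Central unitary elements different from `1`. -/
structure CU (D : Type) [DivisionRing D] [StarRing D] where
  val : D
  comm : ∀ x, val * x = x * val
  unit : val * star val = 1
  ne : val ≠ 1

section lq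

variable {D V : Type} [DivisionRing D] [StarRing D] [AddCommGroup V] [Module D V]
  (H : AForm D V)

theorem CU.sub_ne (u : CU D) : 1 - u.val ≠ 0 := sub_ne_zero.mpr (Ne.symm u.ne)

theorem CU.comm_sub (u : CU D) (x : D) : (1 - u.val) * x = x * (1 - u.val) := by
  rw [sub_mul, mul_sub, one_mul, mul_one, u.comm]

theorem CU.comm_inv (u : CU D) (x : D) : (1 - u.val)⁻¹ * x = x * (1 - u.val)⁻¹ := by
  have h : Commute (1 - u.val) x := u.comm_sub x
  exact h.inv_left₀.eq

theorem CU.star_inv (u : CU D) : (1 - u.val)⁻¹ + star (1 - u.val)⁻¹ = 1 := by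
  have hu0 : u.val ≠ 0 := left_ne_zero_of_mul_eq_one u.unit
  have h1 : star u.val = u.val⁻¹ := eq_inv_of_mul_eq_one_right u.unit
  have h2 := u.sub_ne
  have h3 : (1 : D) - u.val⁻¹ = -(u.val⁻¹ * (1 - u.val)) := by
    rw [mul_sub, mul_one, inv_mul_cancel₀ hu0]; abel
  rw [star_inv₀, star_sub, star_one, h1, h3, inv_neg, mul_inv_rev, inv_inv, ← sub_eq_add_neg]
  nth_rewrite 1 [← mul_one (1 - u.val)⁻¹]
  rw [← mul_sub, inv_mul_cancel₀ h2]

theorem lq_cond (u : CU D) (p : V) :
    H.h p p * (1 - u.val)⁻¹ + star (H.h p p * (1 - u.val)⁻¹) = H.h p p := by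
  have h1 : star (H.h p p * (1 - u.val)⁻¹) = H.h p p * star (1 - u.val)⁻¹ := by
    rw [star_mul, H.star_h]
    have h2 := congrArg star (u.comm_inv (H.h p p))
    rw [star_mul, star_mul, H.star_h] at h2
    exact h2.symm
  rw [h1, ← mul_add, u.star_inv, mul_one]

/-- The quasi-reflection acting on the line of `p` as the central unitary element `u`. -/
def lq (u : CU D) (p : V) : V ≃ₗ[D] V := H.qr p (H.h p p * (1 - u.val)⁻¹) (lq_cond H u p)

theorem lq_apply (u : CU D) (p v : V) :
    lq H u p v = v - (1 - u.val) • (H.h v p * (H.h p p)⁻¹) • p := by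
  unfold lq
  rw [H.qr_apply, mul_inv_rev, inv_inv, smul_smul, ← mul_assoc, ← u.comm_sub, mul_assoc]

theorem lq_apply_of_eq (u : CU D) {p v : V} (h : H.h v p = H.h p p) :
    lq H u p v = v - (1 - u.val) • p := by
  rw [lq_apply, h]
  by_cases h0 : H.h p p = 0
  · rw [H.anis h0]; simp
  · rw [mul_inv_cancel₀ h0, one_smul]

theorem lq_apply_of_orth (u : CU D) {p v : V} (h : H.h v p = 0) : lq H u p v = v := by
  rw [lq_apply, h]; simp

theorem lq_mem (u : CU D) (p : V) : lq H u p ∈ H.isom := H.qr_mem _ _ _

theorem lq_conj (u : CU D) {g : V ≃ₗ[D] V} (hg : g ∈ H.isom) (p : V) :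
    g * lq H u p * g⁻¹ = lq H u (g p) := by
  have h1 : H.h (g p) (g p) = H.h p p := H.isom_apply hg p p
  unfold lq
  rw [H.qr_conj hg p _ _ (by rw [h1]; exact lq_cond H u p)]
  congr 1
  rw [h1]

/-- The group generated by the quotients of two quasi-reflections with the same factor. -/
def Qgp (S : Set (CU D)) : Subgroup (V ≃ₗ[D] V) :=
  Subgroup.closure {g | ∃ u ∈ S, ∃ p q : V, p ≠ 0 ∧ q ≠ 0 ∧ g = lq H u p * (lq H u q)⁻¹}

variable {H}

theorem Qgp_le {S : Set (CU D)} : Qgp H S ≤ H.isom := by
  rw [Qgp, Subgroup.closure_le]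
  rintro g ⟨u, -, p, q, -, -, rfl⟩
  exact mul_mem (lq_mem H u p) (inv_mem (lq_mem H u q))

theorem Qgp_conj {S : Set (CU D)} {g : V ≃ₗ[D] V} (hg : g ∈ H.isom) {n : V ≃ₗ[D] V}
    (hn : n ∈ Qgp H S) : g * n * g⁻¹ ∈ Qgp H S := by
  have : (Qgp H S).map (MulAut.conj g).toMonoidHom ≤ Qgp H S := by
    rw [Qgp, MonoidHom.map_closure, Subgroup.closure_le]
    rintro _ ⟨_, ⟨u, hu, p, q, hp, hq, rfl⟩, rfl⟩
    refine Subgroup.subset_closure ⟨u, hu, g p, g q, ?_, ?_, ?_⟩
    · exact fun h => hp (g.map_eq_zero_iff.mp h)
    · exact fun h => hq (g.map_eq_zero_iff.mp h)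
    · rw [← lq_conj H u hg, ← lq_conj H u hg]
      simp only [MulEquiv.toMonoidHom_eq_coe, MonoidHom.coe_coe, MulAut.conj_apply]
      group
  exact this ⟨n, hn, rfl⟩

/-- The orbit relation of `Qgp`. -/
def Qrel (H : AForm D V) (S : Set (CU D)) (x y : V) : Prop := ∃ g ∈ Qgp H S, g x = y

theorem Qrel.symm {S : Set (CU D)} {x y : V} (h : Qrel H S x y) : Qrel H S y x := by
  obtain ⟨g, hg, rfl⟩ := h
  exact ⟨g⁻¹, inv_mem hg, by rw [← LinearEquiv.mul_apply, inv_mul_cancel]; rfl⟩

theorem Qrel.trans {S : Set (CU D)} {x y z : V} (h : Qrel H S x y) (h' : Qrel H S y z) :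
    Qrel H S x z := by
  obtain ⟨g, hg, rfl⟩ := h
  obtain ⟨g', hg', rfl⟩ := h'
  exact ⟨g' * g, mul_mem hg' hg, rfl⟩

theorem Qrel.refl {S : Set (CU D)} (x : V) : Qrel H S x x := ⟨1, one_mem _, rfl⟩

theorem Qrel.smul {S : Set (CU D)} {x y : V} (h : Qrel H S x y) (c : D) :
    Qrel H S (c • x) (c • y) := by
  obtain ⟨g, hg, rfl⟩ := h
  exact ⟨g, hg, map_smul _ _ _⟩

theorem Qrel.of_lq {S : Set (CU D)} {u : CU D} (hu : u ∈ S) {p q x y : V} (hp : p ≠ 0)
    (hq : q ≠ 0) (h : lq H u p x = lq H u q y) : Qrel H S x y := by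
  refine ⟨(lq H u q)⁻¹ * (lq H u p * (lq H u q)⁻¹) * (lq H u q)⁻¹⁻¹, ?_, ?_⟩
  · exact Qgp_conj (inv_mem (lq_mem H u q)) (Subgroup.subset_closure ⟨u, hu, p, q, hp, hq, rfl⟩)
  · have e : (lq H u q)⁻¹ * (lq H u p * (lq H u q)⁻¹) * (lq H u q)⁻¹⁻¹ =
        (lq H u q)⁻¹ * lq H u p := by group
    rw [e, LinearEquiv.mul_apply, h, ← LinearEquiv.mul_apply, inv_mul_cancel]
    rfl

end lq

section two

variable {D V L : Type} [DivisionRing D] [StarRing D] [AddCommGroup V] [Module D V]
  [Field L] [StarRing L] [CharZero L] {H : AForm D V} {ι : L →+* D}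
  (hι : ∀ z, ι (star z) = star (ι z))

include hι in
/-- Two vectors of the same norm in a hermitian space over a commutative subfield are moved to
each other by two quasi-reflections with the same factor. -/
theorem two_lines {S : Set (CU D)} {w : CU D} (hw : w ∈ S) {u : L} (huw : ι u = w.val)
    {x v z : V} {a b c f : L}
    (hxx : H.h x x = ι a) (hxv : H.h x v = ι b)
    (hvv : H.h v v = ι c) (hzz : H.h z z = ι f) (hxz : H.h x z = 0) (hvz : H.h v z = 0)
    (hyy : H.h (x - (1 - w.val) • v) (x - (1 - w.val) • v) = ι a)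
    (ha0 : a ≠ 0) (hc0 : c ≠ 0) (hf0 : f ≠ 0) (hac : a - c ≠ 0) (hD : a * c - b * star b ≠ 0)
    {θ : L} (hθ : star θ = -θ) (hθ0 : θ ≠ 0)
    (h : ∃ ξ η : L, (a * c - b * star b) * c * (a - c) =
      ξ * star ξ + (a * (a * c - b * star b) * f) * (η * star η)) :
    Qrel H S x (x - (1 - w.val) • v) := by
  have hinj : Function.Injective ι := ι.injective
  have hself : ∀ {y : V} {t : L}, H.h y y = ι t → star t = t := by
    intro y t ht
    apply hinj
    rw [hι, ← ht, H.star_h]
  have ha := hself hxx
  have hc := hself hvv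
  have hf := hself hzz
  have hu : u * star u = 1 := by
    apply hinj
    rw [map_mul, hι, huw, w.unit, map_one]
  have hu1 : u ≠ 1 := by
    rintro rfl
    rw [map_one] at huw
    exact w.ne huw.symm
  have e1 : x - (1 - w.val) • v = ι 1 • x + ι (-(1 - u)) • v + ι 0 • z := by
    rw [map_one, map_zero, map_neg, map_sub, map_one, huw, one_smul, neg_smul, zero_smul,
      add_zero, ← sub_eq_add_neg]
  have hrel : (1 - star u) * b + (1 - u) * star b = (1 - u) * (1 - star u) * c := by
    rw [e1, comb H ι hι hxx hxv hvv hzz hxz hvz] at hyy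
    have := hinj hyy
    simp only [star_one, star_neg, star_sub, star_zero] at this
    linear_combination -this
  obtain ⟨α, β, l, h1, h2, h3, h4⟩ := main_comm hu ha hc hf hrel hu1 ha0 hc0 hac hD hθ hθ0 h
  obtain ⟨p, hp⟩ : ∃ p, p = ι α • x + ι β • v + ι l • z := ⟨_, rfl⟩
  have hx' : x = ι 1 • x + ι 0 • v + ι 0 • z := by simp
  have hv' : v = ι 0 • x + ι 1 • v + ι 0 • z := by simp
  have hpx : H.h p x = ι (α * a + β * star b) := by
    rw [hp]
    nth_rewrite 2 [hx']
    rw [comb H ι hι hxx hxv hvv hzz hxz hvz]
    congr 1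
    simp
  have hxp : H.h x p = ι (α * a + β * star b) := by
    rw [← H.star_h, hpx, ← hι, h2]
  have hpp : H.h p p = ι (α * a + β * star b) := by
    rw [hp, comb H ι hι hxx hxv hvv hzz hxz hvz, h3]
  have hpv : H.h p v = ι (α * b + β * c) := by
    rw [hp]
    nth_rewrite 2 [hv']
    rw [comb H ι hι hxx hxv hvv hzz hxz hvz]
    congr 1
    simp
  have hvp : H.h v p = ι (star (α * b + β * c)) := by
    rw [← H.star_h, hpv, ← hι]
  have hp0 : p ≠ 0 := by
    rintro h0
    rw [h0, H.zero_left] at hpp
    exact h1 (hinj (by rw [map_zero]; exact hpp.symm))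
  have hz0 : z ≠ 0 := by
    rintro h0
    rw [h0, H.zero_left] at hzz
    exact hf0 (hinj (by rw [map_zero]; exact hzz.symm))
  have hL : lq H w p x = x - (1 - w.val) • p := lq_apply_of_eq H w (by rw [hxp, hpp])
  obtain ⟨q, hq⟩ : ∃ q, q = p - v := ⟨_, rfl⟩
  have hyq : H.h (x - (1 - w.val) • v) q = H.h q q := by
    have hu' : star w.val = ι (star u) := by rw [hι, huw]
    have e2 : H.h (x - (1 - w.val) • v) q - H.h q q = ι (b * 0) := by
      have e3 : H.h (x - (1 - w.val) • v) q - H.h q q = H.h (x + w.val • v - p) (p - v) := by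
        rw [← H.sub_left]
        congr 1
        rw [hq, sub_smul, one_smul]; abel
      rw [e3]
      simp only [H.add_left, H.sub_left, H.sub_right, H.smul_left, hxp, hpp, hvp, hpv, hxv, hvv,
        ← huw, ← map_mul, ← map_add, ← map_sub]
      congr 1
      linear_combination h4
    rw [mul_zero, map_zero] at e2
    exact sub_eq_zero.mp e2
  by_cases hq0 : q = 0
  · have hpv' : p = v := sub_eq_zero.mp (hq ▸ hq0)
    refine Qrel.of_lq hw hp0 hz0 ?_
    rw [hL, hpv']
    refine (lq_apply_of_orth H w ?_).symm
    rw [H.sub_left, H.smul_left, hxz, hvz]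
    simp
  · refine Qrel.of_lq hw hp0 hq0 ?_
    rw [hL, lq_apply_of_eq H w hyq, hq, smul_sub]
    abel

end two

end Vale.Agent.P011.Tri
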