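import Vale.Agent.P011.Tri.Sub
import Vale.Agent.P011.Tri.Frame

/-!
Transitivity of the group generated by quotients of quasi-reflections with the same central factor
on the unit sphere of an anisotropic hermitian form.
-/

open Module NumberField

namespace Vale.Agent.P011.Tri

open Vale.Agent.P011S

section core

variable {K D V : Type} [Field K] [NumberField K] [StarRing K] [DivisionRing D] [StarRing D]
  [Algebra K D] [StarModule K D] [FiniteDimensional K D] [AddCommGroup V] [Module D V]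

/-- The set `S` of central unitary elements comes close to `-1` at all real places. -/
def Near (K : Type) {D : Type} [Field K] [StarRing K] [DivisionRing D] [StarRing D] [Algebra K D]
    (S : Set (CU D)) : Prop :=
  ∀ ε : ℝ, 0 < ε → ∃ w ∈ S, ∃ k : K, algebraMap K D k = w.val ∧
    ∀ σ : K →+* ℂ, RT σ → ‖σ k + 1‖ < ε

/-- At no real place both `1 - C` and `f` are negative. -/
def SignOK (K : Type) {D : Type} [Field K] [StarRing K] [DivisionRing D] [StarRing D]
    [Algebra K D] (C f : D) : Prop :=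
  ∀ (L : Type) [Field L] [NumberField L] [StarRing L] [Algebra K L] [FiniteDimensional K L]
    (ι : L →ₐ[K] D), (∀ z, ι (star z) = star (ι z)) →
    (∀ k : K, algebraMap K L (star k) = star (algebraMap K L k)) →
    ∀ c' f' : L, ι c' = C → ι f' = f → ∀ σ : L →+* ℂ, RT σ → (σ (1 - c')).re < 0 →
      0 < (σ f').re

omit [FiniteDimensional K D] [StarModule K D] [NumberField K] in
/-- A skew element of an extension. -/
theorem exists_skew {L : Type} [Field L] [StarRing L] [Algebra K L]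
    (hK : ∃ k : K, star k ≠ k)
    (hKL : ∀ k : K, algebraMap K L (star k) = star (algebraMap K L k)) :
    (∃ z : L, star z ≠ z) ∧ ∃ θ : L, star θ = -θ ∧ θ ≠ 0 := by
  obtain ⟨k, hk⟩ := hK
  have h : star (algebraMap K L k) ≠ algebraMap K L k := by
    rw [← hKL]
    exact fun h => hk ((algebraMap K L).injective h)
  refine ⟨⟨_, h⟩, algebraMap K L k - star (algebraMap K L k), ?_, ?_⟩
  · rw [star_sub, star_star, neg_sub]
  · exact sub_ne_zero.mpr (Ne.symm h)

omit [NumberField K] [StarModule K D] [FiniteDimensional K D] in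
/-- Data of a factor close to `-1` in a commutative subfield. -/
theorem near_L {S : Set (CU D)} (hS : Near K S) {L : Type} [Field L] [StarRing L] [Algebra K L]
    (hKL : ∀ k : K, algebraMap K L (star k) = star (algebraMap K L k))
    {ι : L →ₐ[K] D} (hι : ∀ z, ι (star z) = star (ι z)) {ε : ℝ} (hε : 0 < ε) :
    ∃ w ∈ S, ∃ u : L, ι u = w.val ∧ u * star u = 1 ∧ 1 - u ≠ 0 ∧ 1 - star u ≠ 0 ∧
      (∀ τ : L →+* ℂ, RT τ → (τ ((1 + u) * (1 + star u))).re < ε) ∧
      (∀ τ : L →+* ℂ, RT τ → 0 ≤ (τ ((1 + u) * (1 + star u))).re) ∧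
      (∀ τ : L →+* ℂ, RT τ → 0 < (τ ((1 - u) * (1 - star u))).re) := by
  obtain ⟨w, hw, k, hk, hn⟩ := hS (min ε 1) (lt_min hε one_pos)
  obtain ⟨u, hu⟩ : ∃ u, u = algebraMap K L k := ⟨_, rfl⟩
  have huw : ι u = w.val := by rw [hu, ι.commutes, hk]
  have hinj : Function.Injective ι := ι.toRingHom.injective
  have h1 : 1 - u ≠ 0 := by
    intro h
    apply w.sub_ne
    rw [← huw, ← map_one ι, ← map_sub, h, map_zero]
  have h2 : 1 - star u ≠ 0 := by
    intro h
    apply h1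
    have := congrArg star h
    rwa [star_sub, star_one, star_star, star_zero] at this
  refine ⟨w, hw, u, huw, ?_, h1, h2, fun τ hτ => ?_, fun τ hτ => ?_, fun τ hτ => ?_⟩
  · apply hinj
    rw [map_mul, hι, huw, w.unit, map_one]
  · have e1 : (1 + u) * (1 + star u) = (1 + u) * star (1 + u) := by rw [star_add, star_one]
    rw [e1, hτ.normSq, Complex.ofReal_re, Complex.normSq_eq_norm_sq, map_add, map_one, add_comm]
    have h3 := hn (τ.comp (algebraMap K L)) (RT.comp hKL hτ)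
    have h4 : (τ.comp (algebraMap K L)) k = τ u := by rw [hu]; rfl
    rw [h4] at h3
    have h5 : ‖τ u + 1‖ < 1 := lt_of_lt_of_le h3 (min_le_right _ _)
    have h6 : ‖τ u + 1‖ < ε := lt_of_lt_of_le h3 (min_le_left _ _)
    have h7 := norm_nonneg (τ u + 1)
    nlinarith
  · have e1 : (1 + u) * (1 + star u) = (1 + u) * star (1 + u) := by rw [star_add, star_one]
    rw [e1, hτ.normSq, Complex.ofReal_re]
    exact Complex.normSq_nonneg _
  · have e1 : (1 - u) * (1 - star u) = (1 - u) * star (1 - u) := by rw [star_sub, star_one]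
    rw [e1, hτ.normSq, Complex.ofReal_re]
    exact Complex.normSq_pos.mpr ((map_ne_zero τ).mpr h1)

/-- Orthogonal unit vectors. -/
theorem step_B (hNS : NS) (hK : ∃ k : K, star k ≠ k) (hpos : PosE K (1 : D))
    (hRT : ∃ σ : K →+* ℂ, RT σ) {S : Set (CU D)} (hS : Near K S) {H : AForm D V}
    {x x' z : V} (hx : H.h x x = 1) (hx' : H.h x' x' = 1) (hxx' : H.h x x' = 0) (hz : z ≠ 0)
    (hxz : H.h x z = 0) (hx'z : H.h x' z = 0) : Qrel H S x x' := by
  obtain ⟨f, hf⟩ : ∃ f, f = H.h z z := ⟨_, rfl⟩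
  have hfs : star f = f := by rw [hf, H.star_h]
  obtain ⟨L, _, _, _, _, _, ι, hι, hKL, -, f', hf'⟩ :=
    exists_L (K := K) (star_one D) hfs (by rw [one_mul, mul_one])
  obtain ⟨hL, θ, hθ, hθ0⟩ := exists_skew hK hKL
  have hinj : Function.Injective ι := ι.toRingHom.injective
  obtain ⟨w, hw, u, huw, hu, h1u, h1us, hlt, hle, hN⟩ := near_L hS hKL hι one_pos
  have hf'0 : f' ≠ 0 := by
    rintro rfl
    rw [map_zero] at hf'
    exact hz (H.anis (by rw [← hf, ← hf']))
  have hf's : star f' = f' := hinj (by rw [hι, hf', hfs])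
  have hx'x : H.h x' x = 0 := H.orth_symm hxx'
  have hw1 : (1 - w.val) * (1 - w.val)⁻¹ = 1 := mul_inv_cancel₀ w.sub_ne
  have hι1 : ι (1 - u) = 1 - w.val := by rw [map_sub, map_one, huw]
  have hιi : ι (1 - u)⁻¹ = (1 - w.val)⁻¹ := by
    rw [← hι1]
    exact map_inv₀ (ι : L →+* D) _
  obtain ⟨v, hv⟩ : ∃ v, v = (1 - w.val)⁻¹ • (x - x') := ⟨_, rfl⟩
  have hxv' : x - (1 - w.val) • v = x' := by
    rw [hv, smul_smul, hw1, one_smul]; abel
  have hxv : H.h x v = ι ((1 - star u)⁻¹) := by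
    rw [hv, H.smul_right, H.sub_right, hx, hxx', sub_zero, one_mul, ← hιi, ← hι, star_inv₀,
      star_sub, star_one]
  have hvv : H.h v v = ι (2 / ((1 - u) * (1 - star u))) := by
    rw [hv, H.smul_right, H.smul_left, H.sub_right, H.sub_left, H.sub_left, hx, hxx', hx'x, hx',
      ← hιi, ← hι, star_inv₀, star_sub, star_one]
    have e1 : (1 : D) - 0 - (0 - 1) = ι 2 := by
      rw [map_ofNat]; norm_num
    rw [e1, ← map_mul, ← map_mul]
    congr 1
    field_simp
  have hvz : H.h v z = 0 := by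
    rw [hv, H.smul_left, H.sub_left, hxz, hx'z, sub_zero, mul_zero]
  obtain ⟨N, hNd⟩ : ∃ N, N = (1 - u) * (1 - star u) := ⟨_, rfl⟩
  have hN0 : N ≠ 0 := by rw [hNd]; exact mul_ne_zero h1u h1us
  have hNs : star N = N := by
    rw [hNd, star_mul', star_sub, star_sub, star_one, star_star]; ring
  have hNM : N = 4 - (1 + u) * (1 + star u) := by
    rw [hNd]; linear_combination 2 * hu
  have hN2 : ∀ τ : L →+* ℂ, RT τ → 2 < (τ N).re := by
    intro τ hτ
    have h1 := hlt τ hτ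
    rw [hNM, map_sub, Complex.sub_re, map_ofNat]
    have : (4 : ℂ).re = 4 := by norm_num
    rw [this]; linarith
  have hN2' : N - 2 ≠ 0 := by
    intro h
    obtain ⟨σ, hσ⟩ := hRT
    obtain ⟨τ, hτ, -⟩ := exists_RT_ext hK hKL hι hpos hσ
    have h1 := hN2 τ hτ
    have h2 : N = 2 := by linear_combination h
    rw [h2, map_ofNat] at h1
    norm_num at h1
  have hbb : star ((1 - star u)⁻¹) = (1 - u)⁻¹ := by
    rw [star_inv₀, star_sub, star_one, star_star]
  have hDe : (1 : L) * (2 / ((1 - u) * (1 - star u))) -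
      (1 - star u)⁻¹ * star ((1 - star u)⁻¹) = 1 / N := by
    rw [hbb, hNd]; field_simp; ring
  have hac : (1 : L) - 2 / ((1 - u) * (1 - star u)) = (N - 2) / N := by
    rw [hNd]; field_simp
  have hinvN : ∀ τ : L →+* ℂ, RT τ → τ N = (((τ N).re : ℝ) : ℂ) := fun τ hτ => hτ.eq_re hNs
  have hmain := two_lines (ι := (ι : L →+* D)) (H := H) hι hw huw (x := x) (v := v) (z := z)
    (a := 1) (b := (1 - star u)⁻¹) (c := 2 / ((1 - u) * (1 - star u))) (f := f')
    (by rw [hx]; exact (map_one ι).symm) hxv hvv (by rw [← hf, ← hf']; rfl) hxz hvz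
    (by rw [hxv', hx']; exact (map_one ι).symm) one_ne_zero
    (div_ne_zero two_ne_zero (mul_ne_zero h1u h1us)) hf'0
    (by rw [hac]; exact div_ne_zero hN2' hN0) (by rw [hDe]; exact one_div_ne_zero hN0) hθ hθ0 ?_
  · rwa [hxv'] at hmain
  · rw [hDe, hac, ← hNd]
    refine hNS L hL (1 * (1 / N) * f') (1 / N * (2 / N) * ((N - 2) / N)) ?_ ?_ ?_ ?_ ?_
    · rw [star_mul', star_mul', star_div₀, star_one, hNs, hf's]
    · rw [star_mul', star_mul', star_div₀, star_div₀, star_div₀, star_one, star_sub, hNs,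
        star_ofNat]
    · exact mul_ne_zero (mul_ne_zero one_ne_zero (one_div_ne_zero hN0)) hf'0
    · exact mul_ne_zero (mul_ne_zero (one_div_ne_zero hN0) (div_ne_zero two_ne_zero hN0))
        (div_ne_zero hN2' hN0)
    · intro τ hτ _
      have h1 := hN2 τ hτ
      obtain ⟨n, hn⟩ : ∃ n : ℝ, n = (τ N).re := ⟨_, rfl⟩
      have h2 : τ (1 / N * (2 / N) * ((N - 2) / N)) =
          ((1 / n * (2 / n) * ((n - 2) / n) : ℝ) : ℂ) := by
        simp only [map_mul, map_div₀, map_sub, map_one, map_ofNat]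
        rw [hinvN τ hτ, ← hn]
        push_cast
        rfl
      rw [h2, Complex.ofReal_re]
      rw [← hn] at h1
      have h3 : 0 < n := by linarith
      have h4 : 0 < n - 2 := by linarith
      positivity

/-- Minimum of the absolute values of a nonzero symmetric element at the real places. -/
theorem exists_lb {L : Type} [Field L] [NumberField L] [StarRing L] {t : L} (ht : star t = t)
    (ht0 : t ≠ 0) : ∃ δ : ℝ, 0 < δ ∧ ∀ τ : L →+* ℂ, RT τ → δ ≤ |(τ t).re| := by
  classical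
  let s : Finset ℝ := insert 1 (((Finset.univ : Finset (L →+* ℂ)).filter
    (fun τ => (τ t).re ≠ 0)).image fun τ => |(τ t).re|)
  have hs : s.Nonempty := ⟨1, Finset.mem_insert_self _ _⟩
  refine ⟨s.min' hs, ?_, fun τ hτ => ?_⟩
  · rw [Finset.lt_min'_iff]
    intro y hy
    rcases Finset.mem_insert.mp hy with rfl | hy
    · exact one_pos
    · obtain ⟨τ, hτ, rfl⟩ := Finset.mem_image.mp hy
      exact abs_pos.mpr (Finset.mem_filter.mp hτ).2
  · apply Finset.min'_le
    apply Finset.mem_insert_of_mem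
    refine Finset.mem_image.mpr ⟨τ, Finset.mem_filter.mpr ⟨Finset.mem_univ _, ?_⟩, rfl⟩
    intro h
    have h1 : τ t = 0 := by rw [hτ.eq_re ht, h]; simp
    exact ht0 ((map_eq_zero τ).mp h1)

/-- The real computation. -/
theorem real_arg {rc rf rN rE rT rM ra nβ nb ar ai : ℝ} (hcp : 0 < rc) (hNp : 0 < rN)
    (hE0 : rE ≠ 0) (hs : 1 - rc < 0 → 0 < rf)
    (hp : 0 < rc * (rc * rE / rN) * (rf * (1 - rc) * rE)) (hnβ : 0 ≤ nβ) (hnb : 0 ≤ nb)
    (hE : rE = rf * nβ + rc * (1 - rc) * rc * (ar ^ 2 + ai ^ 2))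
    (hcE : rc * rE = rc ^ 2 - (rc * (1 - rc)) ^ 2 * (ar ^ 2 + ai ^ 2))
    (hD : rc * ra = rc * rE / rN + nb) (hT : rT = 2 * rc + rc * (1 - rc) * (2 * ar))
    (hδ : rM < |rT / rc|) :
    0 < rc * rE / rN * ra * ((rT - rM * rc) / rN) := by
  have hfc : 0 < rf * (1 - rc) := by
    have e1 : rc * (rc * rE / rN) * (rf * (1 - rc) * rE) =
        (rc ^ 2 * rE ^ 2 / rN) * (rf * (1 - rc)) := by ring
    rw [e1] at hp
    have h5 : 0 < rc ^ 2 * rE ^ 2 / rN := by positivity
    exact (mul_pos_iff_of_pos_left h5).mp hp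
  have h1c : 0 < 1 - rc := by
    rcases lt_trichotomy (1 - rc) 0 with h5 | h5 | h5
    · exfalso
      have := hs h5
      nlinarith
    · rw [h5, mul_zero] at hfc; exact absurd hfc (lt_irrefl _)
    · exact h5
  have hf0 : 0 < rf := pos_of_mul_pos_left hfc h1c.le
  have hEpos : 0 < rE := by
    refine lt_of_le_of_ne ?_ (Ne.symm hE0)
    rw [hE]
    positivity
  have hapos : 0 < ra := by
    have h5 : 0 < rc * ra := by
      rw [hD]
      positivity
    exact (mul_pos_iff_of_pos_left hcp).mp h5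
  have hTpos : 0 < rT := by
    obtain ⟨p, hp⟩ : ∃ p, p = rc * (1 - rc) * ar := ⟨_, rfl⟩
    have h9 : p ^ 2 < rc ^ 2 := by
      have h10 : 0 < rc * rE := mul_pos hcp hEpos
      rw [hcE] at h10
      have h11 : 0 ≤ (rc * (1 - rc)) ^ 2 * ai ^ 2 := by positivity
      have h12 : p ^ 2 = (rc * (1 - rc)) ^ 2 * ar ^ 2 := by rw [hp]; ring
      rw [h12]
      nlinarith
    have h13 : -rc < p := by
      rw [sq_lt_sq, abs_of_pos hcp] at h9
      exact (abs_lt.mp h9).1
    rw [hT]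
    have : rc * (1 - rc) * (2 * ar) = 2 * p := by rw [hp]; ring
    rw [this]; linarith
  have hTM' : 0 < rT - rM * rc := by
    rw [abs_of_pos (div_pos hTpos hcp)] at hδ
    rw [lt_div_iff₀ hcp] at hδ
    linarith
  positivity

/-- The second application of the norm theorem. -/
theorem final_NS (hNS : NS) {L : Type} [Field L] [NumberField L] [StarRing L]
    (hL : ∃ z : L, star z ≠ z) (hRTL : ∃ τ : L →+* ℂ, RT τ) {c f' g α β E T N M a₁ b₁ : L}
    (hcs : star c = c) (hf's : star f' = f') (hc0 : c ≠ 0) (hc1 : 1 - c ≠ 0) (hf'0 : f' ≠ 0)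
    (hcpos : ∀ τ : L →+* ℂ, RT τ → 0 < (τ c).re)
    (hsgn : ∀ (σ : L →+* ℂ), RT σ → (σ (1 - c)).re < 0 → 0 < (σ f').re)
    (hg : g = c * (1 - c)) (hEd : E = f' * (β * star β) + g * c * (α * star α))
    (hcE : c * E = c ^ 2 - g ^ 2 * (α * star α)) (hEs : star E = E) (hE0 : E ≠ 0)
    (hT : T = 2 * c + g * (α + star α)) (hTs : star T = T) (hNs : star N = N) (hN0 : N ≠ 0)
    (hN : ∀ τ : L →+* ℂ, RT τ → 0 < (τ N).re) (hMs : star M = M)
    (hle : ∀ τ : L →+* ℂ, RT τ → 0 ≤ (τ M).re)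
    (hlt : ∀ τ : L →+* ℂ, RT τ → (τ M).re < |(τ (T / c)).re|)
    (ha₁s : star a₁ = a₁) (ha₁0 : a₁ ≠ 0) (hDe : c * a₁ - b₁ * star b₁ = c * E / N)
    (hac : c - a₁ = (T - M * c) / N) :
    T - M * c ≠ 0 ∧ ∃ ξ η : L, (c * a₁ - b₁ * star b₁) * a₁ * (c - a₁) =
      ξ * star ξ + (c * (c * a₁ - b₁ * star b₁) * (f' * (1 - c) * E)) * (η * star η) := by
  have hr : ∀ (τ : L →+* ℂ), RT τ → ∀ {t : L}, star t = t → τ t = (((τ t).re : ℝ) : ℂ) :=
    fun τ hτ t ht => hτ.eq_re ht
  have hTc : ∀ τ : L →+* ℂ, RT τ → (τ (T / c)).re = (τ T).re / (τ c).re := by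
    intro τ hτ
    rw [map_div₀, hr τ hτ hTs, hr τ hτ hcs, ← Complex.ofReal_div, Complex.ofReal_re,
      Complex.ofReal_re, Complex.ofReal_re]
  have hTM : ∀ τ : L →+* ℂ, RT τ → (τ (T - M * c)).re = (τ T).re - (τ M).re * (τ c).re := by
    intro τ hτ
    rw [map_sub, map_mul, hr τ hτ hTs, hr τ hτ hcs, hr τ hτ hMs, ← Complex.ofReal_mul,
      ← Complex.ofReal_sub, Complex.ofReal_re, Complex.ofReal_re, Complex.ofReal_re,
      Complex.ofReal_re]
  have hTM0 : T - M * c ≠ 0 := by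
    intro h
    obtain ⟨τ, hτ⟩ := hRTL
    have h1 := hlt τ hτ
    have h3 := hle τ hτ
    have h4 := hTM τ hτ
    have h5 := hcpos τ hτ
    rw [h, map_zero, Complex.zero_re] at h4
    rw [hTc τ hτ, show (τ T).re = (τ M).re * (τ c).re by linarith, mul_div_assoc,
      div_self h5.ne', mul_one, abs_of_nonneg h3] at h1
    exact lt_irrefl _ h1
  refine ⟨hTM0, ?_⟩
  have hDs : star (c * E / N) = c * E / N := by
    rw [star_div₀, star_mul', hcs, hEs, hNs]
  have hacs : star ((T - M * c) / N) = (T - M * c) / N := by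
    rw [star_div₀, star_sub, star_mul', hTs, hMs, hcs, hNs]
  have hD0 : c * E / N ≠ 0 := div_ne_zero (mul_ne_zero hc0 hE0) hN0
  rw [hac]
  refine hNS L hL _ _ ?_ ?_ ?_ ?_ ?_
  · rw [hDe, star_mul', star_mul', star_mul', star_mul', hDs, star_sub, star_one, hcs, hf's,
      hEs]
  · rw [hDe, star_mul', star_mul', hDs, hacs, ha₁s]
  · rw [hDe]
    exact mul_ne_zero (mul_ne_zero hc0 hD0) (mul_ne_zero (mul_ne_zero hf'0 hc1) hE0)
  · rw [hDe]
    exact mul_ne_zero (mul_ne_zero hD0 ha₁0) (div_ne_zero hTM0 hN0)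
  · intro τ hτ hp
    have hcp := hcpos τ hτ
    have hs := hsgn τ hτ
    have hNp := hN τ hτ
    have h2 := hlt τ hτ
    rw [hTc τ hτ] at h2
    -- real numbers
    obtain ⟨rc, hrc⟩ : ∃ r : ℝ, r = (τ c).re := ⟨_, rfl⟩
    obtain ⟨rf, hrf⟩ : ∃ r : ℝ, r = (τ f').re := ⟨_, rfl⟩
    obtain ⟨rN, hrN⟩ : ∃ r : ℝ, r = (τ N).re := ⟨_, rfl⟩
    obtain ⟨rE, hrE⟩ : ∃ r : ℝ, r = (τ E).re := ⟨_, rfl⟩
    obtain ⟨rT, hrT⟩ : ∃ r : ℝ, r = (τ T).re := ⟨_, rfl⟩
    obtain ⟨rM, hrM⟩ : ∃ r : ℝ, r = (τ M).re := ⟨_, rfl⟩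
    obtain ⟨ra, hra⟩ : ∃ r : ℝ, r = (τ a₁).re := ⟨_, rfl⟩
    have tc : τ c = (rc : ℂ) := by rw [hrc]; exact hr τ hτ hcs
    have tf : τ f' = (rf : ℂ) := by rw [hrf]; exact hr τ hτ hf's
    have tN : τ N = (rN : ℂ) := by rw [hrN]; exact hr τ hτ hNs
    have tE : τ E = (rE : ℂ) := by rw [hrE]; exact hr τ hτ hEs
    have tT : τ T = (rT : ℂ) := by rw [hrT]; exact hr τ hτ hTs
    have tM : τ M = (rM : ℂ) := by rw [hrM]; exact hr τ hτ hMs
    have ta : τ a₁ = (ra : ℂ) := by rw [hra]; exact hr τ hτ ha₁s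
    have t1c : (τ (1 - c)).re = 1 - rc := by
      rw [map_sub, map_one, tc, ← Complex.ofReal_one, ← Complex.ofReal_sub, Complex.ofReal_re]
    rw [t1c, ← hrf] at hs
    rw [← hrc] at hcp h2
    rw [← hrM, ← hrT] at h2
    rw [← hrN] at hNp
    rw [hDe] at hp ⊢
    have hp' : (τ (c * (c * E / N) * (f' * (1 - c) * E))).re =
        rc * (rc * rE / rN) * (rf * (1 - rc) * rE) := by
      simp only [map_mul, map_div₀, map_sub, map_one, tc, tE, tN, tf]
      rw [← Complex.ofReal_re (rc * (rc * rE / rN) * (rf * (1 - rc) * rE))]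
      push_cast; rfl
    rw [hp'] at hp
    have hgoal : (τ (c * E / N * a₁ * ((T - M * c) / N))).re =
        rc * rE / rN * ra * ((rT - rM * rc) / rN) := by
      simp only [map_mul, map_div₀, map_sub, tc, tE, tN, tT, tM, ta]
      rw [← Complex.ofReal_re (rc * rE / rN * ra * ((rT - rM * rc) / rN))]
      push_cast; rfl
    rw [hgoal]
    have hrE0 : rE ≠ 0 := by
      rintro h
      rw [h] at tE
      exact hE0 ((map_eq_zero τ).mp (by rw [tE]; simp))
    have h8 : Complex.normSq (τ α) = (τ α).re ^ 2 + (τ α).im ^ 2 := by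
      rw [Complex.normSq_apply]; ring
    have tα : τ (α * star α) = (((τ α).re ^ 2 + (τ α).im ^ 2 : ℝ) : ℂ) := by
      rw [hτ.normSq α, h8]
    have tβ : τ (β * star β) = ((Complex.normSq (τ β) : ℝ) : ℂ) := hτ.normSq β
    have tg : τ g = ((rc * (1 - rc) : ℝ) : ℂ) := by
      rw [hg, map_mul, map_sub, map_one, tc]; push_cast; rfl
    refine real_arg (nβ := Complex.normSq (τ β)) (nb := Complex.normSq (τ b₁)) (ar := (τ α).re)
      (ai := (τ α).im) hcp hNp hrE0 hs hp (Complex.normSq_nonneg _) (Complex.normSq_nonneg _)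
      ?_ ?_ ?_ ?_ h2
    · have : τ E = ((rf * Complex.normSq (τ β) + rc * (1 - rc) * rc *
          ((τ α).re ^ 2 + (τ α).im ^ 2) : ℝ) : ℂ) := by
        rw [hEd, map_add, map_mul τ f', map_mul τ (g * c), map_mul τ g, tα, tβ, tg, tf, tc]
        push_cast; rfl
      rw [hrE, this, Complex.ofReal_re]
    · have h6 := congrArg τ hcE
      rw [map_mul, map_sub, map_pow, map_mul, map_pow, tα, tg, tc, tE] at h6
      exact_mod_cast h6
    · have h5 : c * a₁ = c * E / N + b₁ * star b₁ := by rw [← hDe]; ring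
      have h6 := congrArg τ h5
      rw [map_add, map_mul, map_div₀, map_mul, tc, ta, tE, tN, hτ.normSq] at h6
      exact_mod_cast h6
    · have h7 := congrArg τ hT
      rw [map_add, map_mul, map_mul, map_add, hτ α, tg, tc, tT, map_ofNat,
        Complex.add_conj] at h7
      exact_mod_cast h7

/-- From two unit vectors which are neither orthogonal nor parallel to orthogonal ones. -/
theorem step_A (hNS : NS) (hK : ∃ k : K, star k ≠ k) (hpos : PosE K (1 : D))
    (hRT : ∃ σ : K →+* ℂ, RT σ) {S : Set (CU D)} (hS : Near K S) {H : AForm D V}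
    {x x' z : V} {ζ C : D} (hx : H.h x x = 1) (hx' : H.h x' x' = 1) (hxx' : H.h x x' = ζ)
    (hC : C = ζ * star ζ) (hC0 : C ≠ 0) (hC1 : C ≠ 1) (hz : z ≠ 0)
    (hxz : H.h x z = 0) (hx'z : H.h x' z = 0) (hcomm : C * H.h z z = H.h z z * C)
    (hsign : SignOK K C (H.h z z)) :
    ∃ x'' : V, H.h x'' x'' = 1 ∧ H.h x x'' = 0 ∧ Qrel H S x' x'' := by
  have hζ0 : ζ ≠ 0 := by rintro rfl; exact hC0 (by rw [hC, zero_mul])
  have hCs : star C = C := by rw [hC, star_mul, star_star]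
  obtain ⟨f, hf⟩ : ∃ f, f = H.h z z := ⟨_, rfl⟩
  have hfs : star f = f := by rw [hf, H.star_h]
  rw [← hf] at hcomm hsign
  obtain ⟨L, _, _, _, _, _, ι, hι, hKL, ⟨c, hc⟩, f', hf'⟩ := exists_L (K := K) hCs hfs hcomm
  obtain ⟨hL, θ, hθ, hθ0⟩ := exists_skew hK hKL
  have hinj : Function.Injective ι := ι.toRingHom.injective
  have hc0 : c ≠ 0 := by rintro rfl; exact hC0 (by rw [← hc, map_zero])
  have hc1 : 1 - c ≠ 0 := by
    intro h
    apply hC1
    rw [← hc, show c = 1 by linear_combination -h, map_one]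
  have hcs : star c = c := hinj (by rw [hι, hc, hCs])
  have hf'0 : f' ≠ 0 := by
    rintro rfl
    rw [map_zero] at hf'
    exact hz (H.anis (by rw [← hf, ← hf']))
  have hf's : star f' = f' := hinj (by rw [hι, hf', hfs])
  have hsgn := hsign L ι hι hKL c f' hc hf'
  have hcpos : ∀ τ : L →+* ℂ, RT τ → 0 < (τ c).re := fun τ hτ =>
    PosE.re_pos hK hKL hι hcs (by rw [hc, hC]; exact PosE.mul_star hpos hζ0) hτ
  -- values at real places
  have hr : ∀ (τ : L →+* ℂ), RT τ → ∀ {t : L}, star t = t → τ t = (((τ t).re : ℝ) : ℂ) :=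
    fun τ hτ t ht => hτ.eq_re ht
  obtain ⟨g, hg⟩ : ∃ g, g = c * (1 - c) := ⟨_, rfl⟩
  have hg0 : g ≠ 0 := by rw [hg]; exact mul_ne_zero hc0 hc1
  have hgs : star g = g := by rw [hg, star_mul', star_sub, star_one, hcs]
  -- first application of the norm theorem
  have hE : ∃ α β : L, 1 / (1 - c) = α * star α + (f' / g) * (β * star β) := by
    refine hNS L hL (f' / g) (1 / (1 - c)) ?_ ?_ (div_ne_zero hf'0 hg0) (one_div_ne_zero hc1) ?_
    · rw [star_div₀, hf's, hgs]
    · rw [star_div₀, star_sub, star_one, hcs]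
    · intro τ hτ h
      obtain ⟨rc, hrc⟩ : ∃ r : ℝ, r = (τ c).re := ⟨_, rfl⟩
      obtain ⟨rf, hrf⟩ : ∃ r : ℝ, r = (τ f').re := ⟨_, rfl⟩
      have hcp := hcpos τ hτ
      have hs := hsgn τ hτ
      have e1 : τ (f' / g) = ((rf / (rc * (1 - rc)) : ℝ) : ℂ) := by
        rw [hg, map_div₀, map_mul, map_sub, map_one, hr τ hτ hcs, hr τ hτ hf's, ← hrc, ← hrf]
        push_cast; rfl
      have e2 : τ (1 / (1 - c)) = ((1 / (1 - rc) : ℝ) : ℂ) := by
        rw [map_div₀, map_sub, map_one, hr τ hτ hcs, ← hrc]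
        push_cast; rfl
      have e3 : τ (1 - c) = ((1 - rc : ℝ) : ℂ) := by
        rw [map_sub, map_one, hr τ hτ hcs, ← hrc]
        push_cast; rfl
      rw [e1, Complex.ofReal_re] at h
      rw [e3, Complex.ofReal_re, ← hrf] at hs
      rw [e2, Complex.ofReal_re]
      rw [← hrc] at hcp
      by_contra hneg
      have h4 : 1 - rc < 0 := by
        rcases lt_trichotomy (1 - rc) 0 with h5 | h5 | h5
        · exact h5
        · exfalso
          have : τ (1 - c) = 0 := by rw [e3, h5]; simp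
          exact hc1 ((map_eq_zero τ).mp this)
        · exact absurd (one_div_pos.mpr h5) hneg
      have h6 := hs h4
      have h7 : rf / (rc * (1 - rc)) < 0 := div_neg_of_pos_of_neg h6 (mul_neg_of_pos_of_neg hcp h4)
      exact lt_asymm h h7
  obtain ⟨α, β, hαβ⟩ := hE
  have hαβ' : α * g * star α + β * f' * star β = c := by
    have h1 : g * (1 / (1 - c)) = g * (α * star α) + f' * (β * star β) := by
      rw [hαβ]; field_simp
    have h2 : g * (1 / (1 - c)) = c := by rw [hg]; field_simp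
    rw [h2] at h1
    linear_combination -h1
  -- the vectors
  obtain ⟨y, hy⟩ : ∃ y, y = ζ • x' := ⟨_, rfl⟩
  have hyy : H.h y y = ι c := by rw [hy, H.smul_left, H.smul_right, hx', one_mul, hc, hC]
  have hxy : H.h x y = ι c := by rw [hy, H.smul_right, hxx', hc, hC]
  have hyx : H.h y x = ι c := by rw [← H.star_h, hxy, ← hι, hcs]
  have hyz : H.h y z = 0 := by rw [hy, H.smul_left, hx'z, mul_zero]
  obtain ⟨y', hy'⟩ : ∃ y', y' = y - ι c • x := ⟨_, rfl⟩
  have hxy' : H.h x y' = 0 := by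
    rw [hy', H.sub_right, H.smul_right, hxy, hx, one_mul, ← hι, hcs, sub_self]
  have hyy' : H.h y y' = ι g := by
    rw [hy', H.sub_right, H.smul_right, hyy, hyx, ← hι, ← map_mul, ← map_sub, hcs, hg]
    congr 1; ring
  have hy'x : H.h y' x = 0 := H.orth_symm hxy'
  have hy'y' : H.h y' y' = ι g := by
    nth_rewrite 1 [hy']
    rw [H.sub_left, H.smul_left, hyy', hxy', mul_zero, sub_zero]
  have hy'z : H.h y' z = 0 := by rw [hy', H.sub_left, H.smul_left, hyz, hxz, mul_zero, sub_zero]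
  have hzz : H.h z z = ι f' := by rw [hf', hf]
  have hxx1 : H.h x x = ι 1 := by rw [hx, map_one]
  -- combinations of `x`, `y'`, `z`
  have hcomb : ∀ α₁ β₁ l₁ α₂ β₂ l₂ : L,
      H.h (ι α₁ • x + ι β₁ • y' + ι l₁ • z) (ι α₂ • x + ι β₂ • y' + ι l₂ • z) =
        ι (α₁ * star α₂ + β₁ * g * star β₂ + l₁ * f' * star l₂) := by
    intro α₁ β₁ l₁ α₂ β₂ l₂
    have := comb H (ι : L →+* D) hι (x := x) (v := y') (z := z) (a := 1) (b := 0) (c := g)
      (f := f') hxx1 (by rw [hxy']; exact (map_zero ι).symm) hy'y' hzz hxz hy'z α₁ β₁ l₁ α₂ β₂ l₂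
    refine this.trans ?_
    change ι _ = ι _
    congr 1
    rw [star_zero]; ring
  obtain ⟨yf, hyf⟩ : ∃ yf, yf = ι 0 • x + ι α • y' + ι β • z := ⟨_, rfl⟩
  have hyc : y = ι c • x + ι 1 • y' + ι 0 • z := by
    rw [map_one, map_zero, one_smul, zero_smul, add_zero, hy']; abel
  have hxc : x = ι 1 • x + ι 0 • y' + ι 0 • z := by
    rw [map_one, map_zero, one_smul, zero_smul, zero_smul, add_zero, add_zero]
  have hyfyf : H.h yf yf = ι c := by
    rw [hyf, hcomb]
    congr 1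
    rw [star_zero]
    linear_combination hαβ'
  have hyfx : H.h yf x = 0 := by
    rw [hyf]
    nth_rewrite 2 [hxc]
    rw [hcomb, ← map_zero ι]
    congr 1
    simp
  have hxyf : H.h x yf = 0 := H.orth_symm hyfx
  have hyyf : H.h y yf = ι (g * star α) := by
    rw [hyf, hyc, hcomb]
    congr 1
    simp
  have hyfy : H.h yf y = ι (g * α) := by
    rw [hyf, hyc, hcomb]
    congr 1
    simp; ring
  -- `E`, `T`
  obtain ⟨E, hEd⟩ : ∃ E, E = f' * (β * star β) + g * c * (α * star α) := ⟨_, rfl⟩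
  have hcE : c * E = c ^ 2 - g ^ 2 * (α * star α) := by
    rw [hEd]
    have : g = c - c ^ 2 := by rw [hg]; ring
    linear_combination c * hαβ' + (g * (α * star α)) * this
  have hEs : star E = E := by
    rw [hEd, star_add, star_mul', star_mul', star_mul', star_mul', star_mul', star_star,
      star_star, hf's, hgs, hcs]
    ring
  have hE0 : E ≠ 0 := by
    intro h
    rw [h, mul_zero] at hcE
    obtain ⟨t, ht⟩ : ∃ t, t = ι c • yf - ι (g * α) • y := ⟨_, rfl⟩
    have htt : H.h t t = ι (c * (c ^ 2 - g ^ 2 * (α * star α))) := by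
      rw [ht]
      simp only [H.sub_left, H.sub_right, H.smul_left, H.smul_right, hyfyf, hyyf, hyfy, hyy,
        ← hι, ← map_mul, ← map_sub]
      congr 1
      simp only [star_mul', hcs, hgs]
      ring
    rw [← hcE, mul_zero, map_zero] at htt
    have ht0 := H.anis htt
    have htx : H.h t x = ι (-(g * α * c)) := by
      rw [ht, H.sub_left, H.smul_left, H.smul_left, hyfx, hyx, mul_zero, zero_sub, ← map_mul,
        ← map_neg]
    rw [ht0, H.zero_left] at htx
    have h1 : -(g * α * c) = 0 := hinj (by rw [map_zero]; exact htx.symm)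
    have hα : α = 0 := by
      by_contra hα
      exact neg_ne_zero.mpr (mul_ne_zero (mul_ne_zero hg0 hα) hc0) h1
    rw [hα, zero_mul, mul_zero, sub_zero] at hcE
    exact pow_ne_zero 2 hc0 hcE.symm
  obtain ⟨T, hT⟩ : ∃ T, T = 2 * c + g * (α + star α) := ⟨_, rfl⟩
  have hTs : star T = T := by
    rw [hT, star_add, star_mul', star_mul', star_add, star_star, hcs, hgs, star_ofNat]; ring
  have hTT : H.h (y + yf) (y + yf) = ι T := by
    rw [H.add_left, H.add_right, H.add_right, hyy, hyyf, hyfy, hyfyf, ← map_add, ← map_add,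
      ← map_add, hT]
    congr 1; ring
  have hT0 : T ≠ 0 := by
    rintro h
    rw [h, map_zero] at hTT
    have h1 : H.h x (y + yf) = ι c := by rw [H.add_right, hxy, hxyf, add_zero]
    rw [H.anis hTT, H.zero_right] at h1
    exact hc0 (hinj (by rw [map_zero]; exact h1.symm))
  obtain ⟨δ, hδ, hδT⟩ := exists_lb (t := T / c) (by rw [star_div₀, hTs, hcs])
    (div_ne_zero hT0 hc0)
  obtain ⟨w, hw, u, huw, hu, h1u, h1us, hlt, hle, hN⟩ := near_L hS hKL hι hδ
  obtain ⟨N, hNd⟩ : ∃ N, N = (1 - u) * (1 - star u) := ⟨_, rfl⟩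
  have hN0 : N ≠ 0 := by rw [hNd]; exact mul_ne_zero h1u h1us
  have hNs : star N = N := by
    rw [hNd, star_mul', star_sub, star_sub, star_one, star_star]; ring
  obtain ⟨M, hM⟩ : ∃ M, M = (1 + u) * (1 + star u) := ⟨_, rfl⟩
  have hMs : star M = M := by
    rw [hM, star_mul', star_add, star_add, star_one, star_star]; ring
  have hNM : N = 4 - M := by
    rw [hNd, hM]; linear_combination 2 * hu
  rw [← hM] at hlt hle
  rw [← hNd] at hN
  -- the third vector
  obtain ⟨z', hz'⟩ : ∃ z', z' = ι (-((1 - c) * f' * star β)) • x + ι (f' * star β) • y' +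
      ι (-(g * star α)) • z := ⟨_, rfl⟩
  have hz'z' : H.h z' z' = ι (f' * (1 - c) * E) := by
    rw [hz', hcomb]
    congr 1
    simp only [star_neg, star_mul', star_star, star_sub, star_one, hcs, hf's, hgs]
    rw [hEd, hg]; ring
  have hyz' : H.h y z' = 0 := by
    rw [hz', hyc, hcomb, ← map_zero ι]
    congr 1
    simp only [star_neg, star_mul', star_star, star_sub, star_one, hcs, hf's, hgs]
    rw [hg]; ring
  have hyfz' : H.h yf z' = 0 := by
    rw [hz', hyf, hcomb, ← map_zero ι]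
    congr 1
    simp only [star_neg, star_mul', star_star, star_sub, star_one, hcs, hf's, hgs]
    ring
  -- the difference vector
  have hw1 : (1 - w.val) * (1 - w.val)⁻¹ = 1 := mul_inv_cancel₀ w.sub_ne
  have hι1 : ι (1 - u) = 1 - w.val := by rw [map_sub, map_one, huw]
  have hιi : ι (1 - u)⁻¹ = (1 - w.val)⁻¹ := by
    rw [← hι1]
    exact map_inv₀ (ι : L →+* D) _
  obtain ⟨v, hv⟩ : ∃ v, v = (1 - w.val)⁻¹ • (y - yf) := ⟨_, rfl⟩
  have hyv' : y - (1 - w.val) • v = yf := by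
    rw [hv, smul_smul, hw1, one_smul]; abel
  have hsi : star ((1 - u)⁻¹) = (1 - star u)⁻¹ := by rw [star_inv₀, star_sub, star_one]
  have hyv : H.h y v = ι ((c - g * star α) / (1 - star u)) := by
    rw [hv, H.smul_right, H.sub_right, hyy, hyyf, ← hιi, ← hι, hsi, ← map_sub, ← map_mul,
      ← div_eq_mul_inv]
  have hvv : H.h v v = ι ((2 * c - g * (α + star α)) / N) := by
    rw [hv, H.smul_right, H.smul_left, H.sub_right, H.sub_left, H.sub_left, hyy, hyyf, hyfy,
      hyfyf, ← hιi, ← hι, hsi, ← map_sub, ← map_sub, ← map_sub, ← map_mul, ← map_mul, hNd]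
    congr 1
    field_simp
    ring
  have hvz : H.h v z' = 0 := by
    rw [hv, H.smul_left, H.sub_left, hyz', hyfz', sub_zero, mul_zero]
  obtain ⟨a₁, ha₁⟩ : ∃ a₁, a₁ = (2 * c - g * (α + star α)) / N := ⟨_, rfl⟩
  obtain ⟨b₁, hb₁⟩ : ∃ b₁, b₁ = (c - g * star α) / (1 - star u) := ⟨_, rfl⟩
  have hDe : c * a₁ - b₁ * star b₁ = c * E / N := by
    rw [hcE, ha₁, hb₁, star_div₀, star_sub, star_mul', star_star, star_sub, star_one, star_star,
      hcs, hgs, hNd]
    field_simp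
    ring
  have hac : c - a₁ = (T - M * c) / N := by
    rw [ha₁, hT]
    field_simp
    rw [hNM]; ring
  rw [← ha₁] at hvv
  rw [← hb₁] at hyv
  have ha₁s : star a₁ = a₁ := by
    rw [ha₁, star_div₀, star_sub, star_mul', star_mul', star_add, star_star, hcs, hgs, hNs,
      star_ofNat]
    ring
  have ha₁0 : a₁ ≠ 0 := by
    intro h
    rw [h, map_zero] at hvv
    have h1 : y = yf := by rw [← hyv', H.anis hvv, smul_zero, sub_zero]
    rw [← h1, hxy] at hxyf
    exact hc0 (hinj (by rw [map_zero]; exact hxyf))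
  have hRTL : ∃ τ : L →+* ℂ, RT τ := by
    obtain ⟨σ, hσ⟩ := hRT
    obtain ⟨τ, hτ, -⟩ := exists_RT_ext hK hKL hι hpos hσ
    exact ⟨τ, hτ⟩
  obtain ⟨hTM0, hfin⟩ := final_NS hNS hL hRTL hcs hf's hc0 hc1 hf'0 hcpos hsgn hg hEd hcE hEs hE0
    hT hTs hNs hN0 hN hMs hle (fun τ hτ => lt_of_lt_of_le (hlt τ hτ) (hδT τ hτ)) ha₁s ha₁0 hDe hac
  have hmain := two_lines (ι := (ι : L →+* D)) (H := H) hι hw huw (x := y) (v := v) (z := z')
    (a := c) (b := b₁) (c := a₁) (f := f' * (1 - c) * E)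
    hyy hyv hvv hz'z' hyz' hvz (by rw [hyv']; exact hyfyf) hc0 ha₁0
    (mul_ne_zero (mul_ne_zero hf'0 hc1) hE0)
    (by rw [hac]; exact div_ne_zero hTM0 hN0)
    (by rw [hDe]; exact div_ne_zero (mul_ne_zero hc0 hE0) hN0) hθ hθ0 hfin
  rw [hyv'] at hmain
  have h1 := hmain.smul ζ⁻¹
  rw [hy, smul_smul, inv_mul_cancel₀ hζ0, one_smul] at h1
  refine ⟨ζ⁻¹ • yf, ?_, ?_, h1⟩
  · rw [H.smul_left, H.smul_right, hyfyf, hc, hC, star_inv₀]
    have := star_ne_zero.mpr hζ0
    rw [mul_assoc, mul_inv_cancel₀ this, mul_one, inv_mul_cancel₀ hζ0]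
  · rw [H.smul_right, hxyf, zero_mul]

/-- **Transitivity on the unit sphere.** -/
theorem sphere_trans (hNS : NS) (hK : ∃ k : K, star k ≠ k) (hpos : PosE K (1 : D))
    (hRT : ∃ σ : K →+* ℂ, RT σ) {S : Set (CU D)} (hS : Near K S) {H : AForm D V}
    (hR0 : ∀ x y : V, ∃ z : V, z ≠ 0 ∧ H.h x z = 0 ∧ H.h y z = 0)
    (hR1 : ∀ x : V, H.h x x = 1 → ∃ x'' : V, H.h x'' x'' = 1 ∧ H.h x x'' = 0)
    (hRZ : ∀ x x' : V, H.h x x = 1 → H.h x' x' = 1 →
      H.h x x' * star (H.h x x') ≠ 0 → H.h x x' * star (H.h x x') ≠ 1 →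
      ∃ z : V, z ≠ 0 ∧ H.h x z = 0 ∧ H.h x' z = 0 ∧
        H.h x x' * star (H.h x x') * H.h z z = H.h z z * (H.h x x' * star (H.h x x')) ∧
        SignOK K (H.h x x' * star (H.h x x')) (H.h z z))
    {x x' : V} (hx : H.h x x = 1) (hx' : H.h x' x' = 1) : Qrel H S x x' := by
  have hB : ∀ {x x' : V}, H.h x x = 1 → H.h x' x' = 1 → H.h x x' = 0 → Qrel H S x x' := by
    intro x x' hx hx' hxx'
    obtain ⟨z, hz, hxz, hx'z⟩ := hR0 x x'
    exact step_B hNS hK hpos hRT hS hx hx' hxx' hz hxz hx'z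
  obtain ⟨ζ, hζ⟩ : ∃ ζ, ζ = H.h x x' := ⟨_, rfl⟩
  by_cases h0 : ζ = 0
  · exact hB hx hx' (by rw [← hζ, h0])
  obtain ⟨C, hC⟩ : ∃ C, C = ζ * star ζ := ⟨_, rfl⟩
  by_cases h1 : C = 1
  · -- parallel vectors
    have h2 : x - ζ • x' = 0 := by
      apply H.anis
      rw [H.sub_left, H.sub_right, H.sub_right, H.smul_left, H.smul_left, H.smul_right,
        H.smul_right, hx, hx', ← hζ, ← H.star_h, ← hζ, one_mul, ← hC, h1]
      norm_num
    obtain ⟨x'', hx'', hxx''⟩ := hR1 x hx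
    have h3 : H.h x' x'' = 0 := by
      rw [sub_eq_zero.mp h2, H.smul_left] at hxx''
      exact (mul_eq_zero.mp hxx'').resolve_left h0
    exact (hB hx hx'' hxx'').trans (hB hx' hx'' h3).symm
  · have h2 : C ≠ 0 := by
      rw [hC]
      exact mul_ne_zero h0 (star_ne_zero.mpr h0)
    obtain ⟨z, hz, hxz, hx'z, hcomm, hsign⟩ := hRZ x x' hx hx' (by rwa [← hζ, ← hC])
      (by rwa [← hζ, ← hC])
    rw [← hζ, ← hC] at hcomm hsign
    obtain ⟨x'', hx'', hxx'', hq⟩ := step_A hNS hK hpos hRT hS hx hx' hζ.symm hC h2 h1 hz hxz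
      hx'z hcomm hsign
    exact (hB hx hx'' hxx'').trans hq.symm

end core

end Vale.Agent.P011.Tri
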