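import Vale.Agent.P011.Tri.Base

/-!
Total positivity of symmetric elements, in terms of traces, and its consequences in commutative
subfields.
-/

open Module NumberField

namespace Vale.Agent.P011.Tri

open Vale.Agent.P011S

/-- The trace of the left multiplication by `x`. -/
noncomputable def tr (K : Type) {D : Type} [Field K] [DivisionRing D] [Algebra K D] : D →ₗ[K] K :=
  (LinearMap.trace K D).comp (LinearMap.mul K D)

/-- The symmetric element `e` is positive at all real places where the involution is complex
conjugation, in terms of the trace form. -/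
def PosE (K : Type) {D : Type} [Field K] [StarRing K] [DivisionRing D] [StarRing D] [Algebra K D]
    (e : D) : Prop :=
  ∀ σ : K →+* ℂ, RT σ → ∀ x : D, x ≠ 0 → 0 < (σ (tr K (x * e * star x))).re

section basic

variable {K D : Type} [Field K] [StarRing K] [DivisionRing D] [StarRing D] [Algebra K D]

theorem PosE.add {e e' : D} (h : PosE K e) (h' : PosE K e') : PosE K (e + e') := by
  intro σ hσ x hx
  rw [mul_add, add_mul, map_add, map_add, Complex.add_re]
  exact add_pos (h σ hσ x hx) (h' σ hσ x hx)

theorem PosE.conj {e : D} (h : PosE K e) {t : D} (ht : t ≠ 0) : PosE K (t * e * star t) := by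
  intro σ hσ x hx
  have := h σ hσ (x * t) (mul_ne_zero hx ht)
  rwa [star_mul, show x * t * e * (star t * star x) = x * (t * e * star t) * star x by
    simp only [mul_assoc]] at this

theorem PosE.mul_star (h : PosE K (1 : D)) {t : D} (ht : t ≠ 0) : PosE K (t * star t) := by
  have := h.conj ht
  rwa [mul_one] at this

theorem PosE.smul {e : D} (h : PosE K e) {b : K} (hb : star b = b)
    (hpos : ∀ σ : K →+* ℂ, RT σ → 0 < (σ b).re) : PosE K (algebraMap K D b * e) := by
  intro σ hσ x hx
  have e1 : x * (algebraMap K D b * e) * star x = b • (x * e * star x) := by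
    rw [Algebra.smul_def, ← mul_assoc x, ← Algebra.commutes b x, mul_assoc, mul_assoc, mul_assoc]
  rw [e1, map_smul, smul_eq_mul, map_mul, hσ.eq_re hb, Complex.re_ofReal_mul]
  exact mul_pos (hpos σ hσ) (h σ hσ x hx)

end basic

section trace

variable {K D L : Type} [Field K] [DivisionRing D] [Algebra K D] [FiniteDimensional K D]
  [Field L] [Algebra K L] [FiniteDimensional K L]

theorem trace_sub (ι : L →ₐ[K] D) : ∃ r : ℕ, ∀ y : L,
    tr K (ι y) = r * Algebra.trace K L y := by
  classical
  let _ : Module L D := Module.compHom D (ι : L →+* D)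
  have hsm : ∀ (l : L) (d : D), l • d = ι l * d := fun _ _ => rfl
  have : IsScalarTower K L D := ⟨fun k l d => by
    rw [hsm, hsm, map_smul, smul_mul_assoc]⟩
  have : FiniteDimensional L D := FiniteDimensional.right K L D
  let b := Module.finBasis K L
  let c := Module.finBasis L D
  refine ⟨finrank L D, fun y => ?_⟩
  have h0 : tr K (ι y) = LinearMap.trace K D (LinearMap.mul K D (ι y)) := rfl
  rw [h0, LinearMap.trace_eq_matrix_trace K (b.smulTower c), Algebra.trace_apply,
    LinearMap.trace_eq_matrix_trace K b, Matrix.trace, Matrix.trace, Fintype.sum_prod_type]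
  simp only [Matrix.diag_apply, LinearMap.toMatrix_apply, Basis.smulTower_apply,
    Basis.smulTower_repr]
  have h1 : ∀ (i : Fin (finrank K L)) (j : Fin (finrank L D)),
      (b.repr ((c.repr ((LinearMap.mulLeft K (ι y)) (b i • c j))) j)) i = (b.repr (y * b i)) i := by
    intro i j
    have e1 : (LinearMap.mulLeft K (ι y)) (b i • c j) = (y * b i) • c j := by
      rw [LinearMap.mulLeft_apply, mul_smul, hsm y]
    rw [e1, map_smul, Basis.repr_self]
    simp
  have h2 : ∀ (i : Fin (finrank K L)) (j : Fin (finrank L D)),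
      (b.repr ((c.repr ((LinearMap.mul K D) (ι y) (b i • c j))) j)) i = (b.repr (y * b i)) i := h1
  have h3 : ∀ i, (b.repr ((Algebra.lmul K L) y (b i))) i = (b.repr (y * b i)) i := fun i => rfl
  simp only [h2, h3, Finset.sum_const, Finset.card_univ, Fintype.card_fin, nsmul_eq_mul,
    Finset.mul_sum]

end trace

section main

variable {K D L : Type} [Field K] [NumberField K] [StarRing K] [DivisionRing D] [StarRing D]
  [Algebra K D] [FiniteDimensional K D]
  [Field L] [NumberField L] [StarRing L] [Algebra K L] [FiniteDimensional K L]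

/-- All extensions of a real place to a commutative subfield are real, and totally positive
elements are positive there. -/
theorem PosE.ext (hK : ∃ k : K, star k ≠ k)
    (hKL : ∀ k : K, algebraMap K L (star k) = star (algebraMap K L k))
    {ι : L →ₐ[K] D} (hι : ∀ z, ι (star z) = star (ι z)) {e : L} (hes : star e = e)
    (he : PosE K (ι e)) {τ : L →+* ℂ} (hσ : RT (τ.comp (algebraMap K L))) :
    RT τ ∧ 0 < (τ e).re := by
  classical
  obtain ⟨k, hk⟩ := hK
  obtain ⟨σ, hσd⟩ : ∃ σ : K →+* ℂ, σ = τ.comp (algebraMap K L) := ⟨_, rfl⟩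
  rw [← hσd] at hσ
  let _ : Algebra K ℂ := σ.toAlgebra
  have halg : ∀ z : K, algebraMap K ℂ z = σ z := fun _ => rfl
  obtain ⟨θ, hθ⟩ : ∃ θ, θ = k - star k := ⟨_, rfl⟩
  have hθ0 : θ ≠ 0 := by rw [hθ]; exact sub_ne_zero.mpr (Ne.symm hk)
  have hθs : star θ = -θ := by rw [hθ, star_sub, star_star, neg_sub]
  have hθre : (σ θ).re = 0 := by
    have h1 := hσ θ
    rw [hθs, map_neg] at h1
    have h2 := congrArg Complex.re h1
    rw [Complex.neg_re, Complex.conj_re] at h2
    linarith
  have hθim : (σ θ).im ≠ 0 := by
    intro h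
    have : σ θ = 0 := Complex.ext hθre h
    exact hθ0 ((map_eq_zero σ).mp this)
  obtain ⟨r, hr⟩ := trace_sub (K := K) (D := D) ι
  -- the conjugate embedding
  let cj : (L →ₐ[K] ℂ) → (L →ₐ[K] ℂ) := fun φ =>
    { toRingHom := (starRingEnd ℂ).comp (φ.toRingHom.comp (starRingEnd L))
      commutes' := fun z => by
        change starRingEnd ℂ (φ (star (algebraMap K L z))) = algebraMap K ℂ z
        rw [← hKL, φ.commutes, halg, halg, hσ, Complex.conj_conj] }
  have hcj : ∀ φ z, φ (star z) = starRingEnd ℂ (cj φ z) := by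
    intro φ z
    change _ = starRingEnd ℂ (starRingEnd ℂ (φ (star z)))
    rw [Complex.conj_conj]
  have hcc : ∀ φ, cj (cj φ) = φ := by
    intro φ
    ext z
    have h1 := hcj (cj φ) z
    have h2 := hcj φ (star z)
    rw [star_star, h1, Complex.conj_conj] at h2
    exact h2.symm
  let τ' : L →ₐ[K] ℂ := { toRingHom := τ, commutes' := fun z => by rw [halg, hσd]; rfl }
  have hτ' : ∀ z, τ' z = τ z := fun _ => rfl
  -- the quadratic form
  let Q : ((L →ₐ[K] ℂ) → ℂ) → ℝ := fun w => (∑ φ, φ e * (w φ * starRingEnd ℂ (w (cj φ)))).re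
  have hQc : Continuous Q := by fun_prop
  have hdense : DenseRange (fun x : L => fun φ : L →ₐ[K] ℂ => (φ : L →+* ℂ) x) := by
    apply P288.BQ.X6.denseRange_embeddings
    · intro φ
      refine ⟨algebraMap K L θ, ?_⟩
      change (φ (algebraMap K L θ)).im ≠ 0
      rwa [φ.commutes, halg]
    · intro φ ψ hne
      refine ⟨fun h => hne (AlgHom.ext fun z => RingHom.congr_fun h z), fun h => ?_⟩
      have h1 := RingHom.congr_fun h (algebraMap K L θ)
      have h2 : ComplexEmbedding.conjugate (φ : L →+* ℂ) (algebraMap K L θ) =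
          starRingEnd ℂ (φ (algebraMap K L θ)) := rfl
      have h3 : (ψ : L →+* ℂ) (algebraMap K L θ) = ψ (algebraMap K L θ) := rfl
      rw [h2, h3, φ.commutes, ψ.commutes, halg] at h1
      have h4 := congrArg Complex.im h1
      rw [Complex.conj_im] at h4
      apply hθim
      linarith
  have hQ : ∀ w, 0 ≤ Q w := by
    intro w
    have hcl : IsClosed {w | 0 ≤ Q w} := isClosed_le continuous_const hQc
    refine hdense.induction_on (p := fun w => 0 ≤ Q w) w hcl ?_
    intro x
    by_cases hx : x = 0
    · subst hx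
      simp [Q]
    · have h1 := he σ hσ (ι x) (by
        intro h
        exact hx (ι.toRingHom.injective (by rw [map_zero]; exact h)))
      have h2 : ι x * ι e * star (ι x) = ι (e * (x * star x)) := by
        rw [← hι, ← map_mul, ← map_mul]
        congr 1; ring
      rw [h2, hr, map_mul, map_natCast] at h1
      have h3 : σ (Algebra.trace K L (e * (x * star x))) =
          ∑ φ : L →ₐ[K] ℂ, φ (e * (x * star x)) := by
        rw [← halg, trace_eq_sum_embeddings ℂ]
      have h4 : (∑ φ : L →ₐ[K] ℂ, φ (e * (x * star x))) =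
          ∑ φ : L →ₐ[K] ℂ, φ e * (φ x * starRingEnd ℂ (cj φ x)) := by
        refine Finset.sum_congr rfl fun φ _ => ?_
        rw [map_mul, map_mul, hcj]
      rw [h3, h4] at h1
      have h5 : (0 : ℝ) < r * Q (fun φ => φ x) := by
        rw [← Complex.re_ofReal_mul]
        simpa using h1
      by_contra h6
      exact absurd h5 (not_lt.mpr (mul_nonpos_of_nonneg_of_nonpos (Nat.cast_nonneg (α := ℝ) r)
        (not_le.mp h6).le))
  have he0 : e ≠ 0 := by
    rintro rfl
    have h3 := he σ hσ 1 one_ne_zero
    simp at h3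
  have hcjτ : cj τ' = τ' := by
    by_contra hne
    have h1 := hQ (fun φ => if φ = τ' then 1 else if φ = cj τ' then -(τ e) else 0)
    have h2 : Q (fun φ => if φ = τ' then 1 else if φ = cj τ' then -(τ e) else 0) =
        -(2 * Complex.normSq (τ e)) := by
      change (∑ φ : L →ₐ[K] ℂ, φ e * ((if φ = τ' then 1 else if φ = cj τ' then -(τ e) else 0) *
        starRingEnd ℂ (if cj φ = τ' then 1 else if cj φ = cj τ' then -(τ e) else 0))).re = _
      rw [← Finset.sum_subset (Finset.subset_univ {τ', cj τ'})]
      · rw [Finset.sum_pair (Ne.symm hne), if_pos rfl, if_neg hne, if_pos rfl,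
          if_pos (hcc τ')]
        have h3 : (cj τ') e = starRingEnd ℂ (τ e) := by
          have h4 := hcj τ' e
          rw [hes, hτ'] at h4
          rw [h4, Complex.conj_conj]
        rw [h3, hτ']
        simp only [one_mul, map_neg, map_one, mul_one, mul_neg, Complex.add_re, Complex.neg_re,
          Complex.mul_re, Complex.conj_re, Complex.conj_im, Complex.normSq_apply]
        ring
      · intro φ _ hφ
        simp only [Finset.mem_insert, Finset.mem_singleton, not_or] at hφ
        rw [if_neg hφ.1, if_neg hφ.2]; simp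
    rw [h2] at h1
    have h3 : 0 < Complex.normSq (τ e) := Complex.normSq_pos.mpr ((map_ne_zero τ).mpr he0)
    linarith
  have hτ : RT τ := by
    intro z
    have h1 := hcj τ' z
    rwa [hcjτ] at h1
  refine ⟨hτ, ?_⟩
  have h0 : 0 ≤ (τ e).re := by
    have h1 := hQ (fun φ => if φ = τ' then 1 else 0)
    have h2 : Q (fun φ => if φ = τ' then 1 else 0) = (τ e).re := by
      change (∑ φ : L →ₐ[K] ℂ, φ e * ((if φ = τ' then 1 else 0) *
        starRingEnd ℂ (if cj φ = τ' then 1 else 0))).re = _
      rw [Finset.sum_eq_single τ']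
      · rw [hcjτ]; simp [hτ']
      · intro φ _ hφ
        rw [if_neg hφ]; simp
      · intro h; exact absurd (Finset.mem_univ _) h
    rwa [h2] at h1
  rcases h0.lt_or_eq with h | h
  · exact h
  · exfalso
    have h1 : τ e = 0 := by rw [hτ.eq_re hes, ← h]; simp
    exact he0 ((map_eq_zero τ).mp h1)

omit [FiniteDimensional K D] [NumberField L] [FiniteDimensional K L] [NumberField K]
  [Algebra K D] [DivisionRing D] [StarRing D] in
theorem RT.comp (hKL : ∀ k : K, algebraMap K L (star k) = star (algebraMap K L k))
    {τ : L →+* ℂ} (hτ : RT τ) : RT (τ.comp (algebraMap K L)) := by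
  intro z
  change τ (algebraMap K L (star z)) = _
  rw [hKL, hτ]; rfl

/-- A totally positive symmetric element is positive at all real places of the commutative
subfields containing it. -/
theorem PosE.re_pos (hK : ∃ k : K, star k ≠ k)
    (hKL : ∀ k : K, algebraMap K L (star k) = star (algebraMap K L k))
    {ι : L →ₐ[K] D} (hι : ∀ z, ι (star z) = star (ι z)) {e : L} (hes : star e = e)
    (he : PosE K (ι e)) {τ : L →+* ℂ} (hτ : RT τ) : 0 < (τ e).re :=
  (he.ext hK hKL hι hes (RT.comp hKL hτ)).2

/-- A real place of the centre extends to a real place of each commutative subfield. -/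
theorem exists_RT_ext (hK : ∃ k : K, star k ≠ k)
    (hKL : ∀ k : K, algebraMap K L (star k) = star (algebraMap K L k))
    {ι : L →ₐ[K] D} (hι : ∀ z, ι (star z) = star (ι z)) (hpos : PosE K (1 : D)) {σ : K →+* ℂ}
    (hσ : RT σ) : ∃ τ : L →+* ℂ, RT τ ∧ τ.comp (algebraMap K L) = σ := by
  let _ : Algebra K ℂ := σ.toAlgebra
  let τ : L →ₐ[K] ℂ := IsAlgClosed.lift
  have h : (τ : L →+* ℂ).comp (algebraMap K L) = σ := by
    ext z
    exact τ.commutes z
  refine ⟨τ, ?_, h⟩
  refine (PosE.ext hK hKL hι (e := 1) (star_one _) (by rwa [map_one]) ?_).1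
  rwa [h]

end main

end Vale.Agent.P011.Tri
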