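import Vale.Agent.P011.Tri.Pos

/-!
Commutative subfields generated by symmetric elements, and unitary elements of the centre close
to `-1`.
-/

open Module NumberField

namespace Vale.Agent.P011.Tri

open Vale.Agent.P011S

section sub

variable {K D : Type} [Field K] [NumberField K] [StarRing K] [DivisionRing D] [StarRing D]
  [Algebra K D] [StarModule K D] [FiniteDimensional K D]

/-- The subfield generated by the centre and two commuting symmetric elements. -/
theorem exists_L {c f : D} (hc : star c = c) (hf : star f = f) (hcf : c * f = f * c) :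
    ∃ (L : Type) (_ : Field L) (_ : NumberField L) (_ : StarRing L) (_ : Algebra K L)
      (_ : FiniteDimensional K L) (ι : L →ₐ[K] D),
      (∀ z, ι (star z) = star (ι z)) ∧
      (∀ k : K, algebraMap K L (star k) = star (algebraMap K L k)) ∧
      (∃ c', ι c' = c) ∧ ∃ f', ι f' = f := by
  classical
  let S : Subalgebra K D := Algebra.adjoin K ({c, f} : Set D)
  have hcomm : ∀ a ∈ ({c, f} : Set D), ∀ b ∈ ({c, f} : Set D), a * b = b * a := by
    intro a ha b hb
    rcases ha with rfl | ha <;> rcases hb with rfl | hb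
    · rfl
    · rw [Set.mem_singleton_iff] at hb; subst hb; exact hcf
    · rw [Set.mem_singleton_iff] at ha; subst ha; exact hcf.symm
    · rw [Set.mem_singleton_iff] at ha hb; rw [ha, hb]
  have hstar : ∀ x ∈ S, star x ∈ S := by
    intro x hx
    induction hx using Algebra.adjoin_induction with
    | mem x hx =>
      apply Algebra.subset_adjoin
      rcases hx with rfl | hx
      · rw [hc]; exact Set.mem_insert _ _
      · rw [Set.mem_singleton_iff] at hx; subst hx
        rw [hf]; exact Set.mem_insert_of_mem _ rfl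
    | algebraMap r =>
      rw [← algebraMap_star_comm]
      exact S.algebraMap_mem _
    | add x y _ _ hx hy => rw [star_add]; exact S.add_mem hx hy
    | mul x y _ _ hx hy => rw [star_mul]; exact S.mul_mem hy hx
  let cr : CommRing S := Algebra.adjoinCommRingOfComm K hcomm
  have hdom : IsDomain S := inferInstance
  let fl : Field S := fieldOfFiniteDimensional K S
  let st : StarRing S :=
    { star := fun x => ⟨star (x : D), hstar x x.2⟩
      star_involutive := fun x => Subtype.ext (star_star _)
      star_mul := fun x y => Subtype.ext (star_mul _ _)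
      star_add := fun x y => Subtype.ext (star_add _ _) }
  have hcz : CharZero S := charZero_of_injective_algebraMap (algebraMap K S).injective
  have hfd : FiniteDimensional ℚ S := FiniteDimensional.trans ℚ K S
  refine ⟨S, fl, ⟨⟩, st, inferInstance, inferInstance, S.val, fun z => rfl, fun k => ?_,
    ⟨⟨c, Algebra.subset_adjoin (Set.mem_insert _ _)⟩, rfl⟩,
    ⟨⟨f, Algebra.subset_adjoin (Set.mem_insert_of_mem _ rfl)⟩, rfl⟩⟩
  apply Subtype.ext
  exact algebraMap_star_comm k

end sub

section unit

variable {K : Type} [Field K] [NumberField K] [StarRing K]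

/-- Powers of unitary elements of the centre come close to `-1` at all real places. -/
theorem exists_near (hK : ∃ k : K, star k ≠ k) {e : ℕ} (he : 0 < e) {ε : ℝ} (hε : 0 < ε) :
    ∃ u : K, u * star u = 1 ∧ ∀ σ : K →+* ℂ, RT σ → ‖σ (u ^ e) + 1‖ < ε := by
  classical
  obtain ⟨k, hk⟩ := hK
  obtain ⟨θ, hθ⟩ : ∃ θ, θ = k - star k := ⟨_, rfl⟩
  have hθ0 : θ ≠ 0 := by rw [hθ]; exact sub_ne_zero.mpr (Ne.symm hk)
  have hθs : star θ = -θ := by rw [hθ, star_sub, star_star, neg_sub]
  have him : ∀ σ : K →+* ℂ, RT σ → (σ θ).im ≠ 0 := by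
    intro σ hσ h
    have h1 := hσ θ
    rw [hθs, map_neg] at h1
    have h2 := congrArg Complex.re h1
    rw [Complex.neg_re, Complex.conj_re] at h2
    have : σ θ = 0 := Complex.ext (by simp; linarith) h
    exact hθ0 ((map_eq_zero σ).mp this)
  -- one embedding out of each conjugate pair
  let J := {σ : K →+* ℂ // RT σ ∧ 0 < (σ θ).im}
  have hJ : Finite J := inferInstance
  have hdense : DenseRange (fun x : K => fun j : J => (j : K →+* ℂ) x) := by
    apply P288.BQ.X6.denseRange_embeddings
    · exact fun j => ⟨θ, him _ j.2.1⟩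
    · intro i j hne
      refine ⟨fun h => hne (Subtype.ext h), fun h => ?_⟩
      have h1 := congrArg Complex.im (RingHom.congr_fun h θ)
      have h2 : (ComplexEmbedding.conjugate (i : K →+* ℂ) θ).im = -((i : K →+* ℂ) θ).im := rfl
      rw [h2] at h1
      have := i.2.2
      have := j.2.2
      linarith
  let z₀ : ℂ := Complex.exp (Real.pi / (2 * e) * Complex.I)
  have hz₀ : (z₀ / starRingEnd ℂ z₀) ^ e = -1 := by
    have h1 : starRingEnd ℂ z₀ = Complex.exp (-(Real.pi / (2 * e) * Complex.I)) := by
      rw [← Complex.exp_conj]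
      congr 1
      have h2 : starRingEnd ℂ 2 = 2 := Complex.conj_ofNat 2
      simp [h2]
    have he' : (e : ℂ) ≠ 0 := Nat.cast_ne_zero.mpr he.ne'
    rw [h1, ← Complex.exp_sub, ← Complex.exp_nat_mul]
    rw [show (e : ℂ) * (Real.pi / (2 * e) * Complex.I - -(Real.pi / (2 * e) * Complex.I)) =
      Real.pi * Complex.I by field_simp; ring, Complex.exp_pi_mul_I]
  have hz₀0 : z₀ ≠ 0 := Complex.exp_ne_zero _
  -- continuity
  have hcont : ContinuousAt (fun z : ℂ => (z / starRingEnd ℂ z) ^ e) z₀ := by
    apply ContinuousAt.pow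
    apply ContinuousAt.div continuousAt_id
    · exact Complex.continuous_conj.continuousAt
    · simpa using hz₀0
  obtain ⟨δ, hδ, hδε⟩ := Metric.continuousAt_iff.mp hcont ε hε
  cases nonempty_fintype J
  obtain ⟨ν, hν⟩ := (Metric.denseRange_iff.1 hdense) (fun _ => z₀) (min δ ‖z₀‖)
    (lt_min hδ (norm_pos_iff.mpr hz₀0))
  have hν' : ∀ j : J, dist ((j : K →+* ℂ) ν) z₀ < min δ ‖z₀‖ := by
    intro j
    rw [dist_comm]
    exact lt_of_le_of_lt (dist_le_pi_dist (fun _ : J => z₀) (fun j : J => (j : K →+* ℂ) ν) j) hν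
  have hgood : ∀ j : J, ‖(j : K →+* ℂ) ((ν / star ν) ^ e) + 1‖ < ε := by
    intro j
    have h1 := hδε (lt_of_lt_of_le (hν' j) (min_le_left _ _))
    rw [hz₀, dist_eq_norm, sub_neg_eq_add] at h1
    rw [map_pow, map_div₀, j.2.1]
    exact h1
  by_cases hν0 : ν = 0
  · -- then there is no real place
    refine ⟨1, by simp, fun σ hσ => ?_⟩
    exfalso
    have key : ∀ j : J, False := by
      intro j
      have h1 := lt_of_lt_of_le (hν' j) (min_le_right _ _)
      rw [hν0, map_zero, dist_zero_left] at h1
      exact lt_irrefl _ h1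
    rcases lt_or_gt_of_ne (him σ hσ) with h | h
    · refine key ⟨ComplexEmbedding.conjugate σ, ?_, ?_⟩
      · intro z
        change starRingEnd ℂ (σ (star z)) = starRingEnd ℂ (starRingEnd ℂ (σ z))
        rw [hσ]
      · change 0 < (starRingEnd ℂ (σ θ)).im
        rw [Complex.conj_im]; linarith
    · exact key ⟨σ, hσ, h⟩
  · have hνs : star ν ≠ 0 := star_ne_zero.mpr hν0
    refine ⟨ν / star ν, ?_, fun σ hσ => ?_⟩
    · rw [star_div₀, star_star]; field_simp
    · rcases lt_or_gt_of_ne (him σ hσ) with h | h
      · have h1 := hgood ⟨ComplexEmbedding.conjugate σ, by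
          intro z
          change starRingEnd ℂ (σ (star z)) = starRingEnd ℂ (starRingEnd ℂ (σ z))
          rw [hσ], by
          change 0 < (starRingEnd ℂ (σ θ)).im
          rw [Complex.conj_im]; linarith⟩
        have h2 : (ComplexEmbedding.conjugate σ) ((ν / star ν) ^ e) + 1 =
            starRingEnd ℂ (σ ((ν / star ν) ^ e) + 1) := by
          rw [map_add, map_one]; rfl
        change ‖(ComplexEmbedding.conjugate σ) ((ν / star ν) ^ e) + 1‖ < ε at h1
        rwa [h2, RCLike.norm_conj] at h1
      · exact hgood ⟨σ, hσ, h⟩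

end unit

end Vale.Agent.P011.Tri
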